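import Vale.Agent.P146.H292.HidF
import Vale.Agent.P146.H355.Inst

/-!
The hidden fields of the amplitude ensemble: `hidA` and the second term of the squared magnetisation
of a hidden site, `ex_Ma_A`.
-/

open MeasureTheory ProbabilityTheory Filter Topology

namespace Vale.Agent.P146.H292

open Vale.Agent.P157.Lv Vale.Agent.P146.H425 Vale.Agent.P146.H325 Vale.Agent.P146.H646
  Vale.Agent.P146.H196 Vale.Agent.P146.H347 Vale.Agent.P146.H475 Vale.Agent.P146.H816
  Vale.Agent.P146.H355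

set_option linter.unusedSectionVars false

variable {n : ℕ} {LB LF : Type} [Fintype LB] [DecidableEq LB] [Fintype LF] [DecidableEq LF]

/-- the spins -/
noncomputable def spn (n : ℕ) (j : Fin n) (w : ℝ × Xs n) : ℝ := sp w.2 j

lemma fd_inj (n : ℕ) (LB : Type) {LF : Type} (l0 : LF) :
    Function.Injective fun j : Fin n => (fd LB j l0 : Co n LB LF) := by
  intro i j h
  simpa using h

/-- the planted means of the amplitude ensemble -/
theorem mnA {lam : ℝ} (hl : 0 < lam) {η : ℝ} (hη : 0 ≤ η) (c b : ℝ) (cB : LB → ℝ)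
    (cF : LF → ℝ) (s : ℝ) {x : ℝ} (hx : x ≤ 1) (l0 : LF) (w : ℝ × Xs n) :
    |mn (Vw (muA (Xs n) lam η c) 1 (Sm b cB cF s η) x w) (Xf (spn n) (fun j => fd LB j l0) w) -
      mn (Vw (muA (Xs n) lam η c) 1 (Sm b cB cF s η) x ((0 : ℝ), fun _ => 1))
        (Xf (spn n) (fun j => fd LB j l0) ((0 : ℝ), fun _ => 1))| ≤ η * |s| * n := by
  have hG := gmA (n := n) b cB cF s hl hη c
  -- gauge
  have h1 := mn_sym (σ := spn n) (e := fun j => fd LB j l0) (symG b cB cF s η hl c w.2) 1 x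
    ((w.1, fun _ => 1) : ℝ × Xs n) (fun z => by
      unfold Xf spn
      refine Finset.sum_congr rfl fun j _ => ?_
      rw [ac]
      simp only [eps_fd, Equiv.Perm.coe_one, id_eq]
      have := sp_mul_self w.2 j
      simp only [one_mul]
      rw [← mul_assoc]
      simp only [this]
      unfold sp
      simp)
  have h2 : ((fun w' : ℝ × Xs n => (w'.1, fun i => w'.2 i * w.2 i)) (w.1, fun _ => 1)) = w := by
    refine Prod.ext rfl ?_
    funext i
    exact one_mul _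
  simp only at h1 h2
  rw [h2] at h1
  rw [h1]
  -- the amplitude
  refine (mn_diff hG 1 hx (fd_inj n LB l0) (fun j w => sp_mul_self w.2 j)
    (w := ((0 : ℝ), fun _ => 1)) (w' := (w.1, fun _ => 1)) (fun j => rfl) fun j => rfl).trans ?_
  have h3 : ∑ i : Co n LB LF, (1 * (Sm b cB cF s η i ((w.1, fun _ => 1) : ℝ × Xs n) -
      Sm b cB cF s η i ((0 : ℝ), fun _ => 1))) ^ 2 ≤ n * (η * |s|) ^ 2 := by
    rw [Fintype.sum_sum_type]
    have h4 : ∑ i : Kp n LB LF, (1 * (Sm b cB cF s η (Sum.inl i) ((w.1, fun _ => 1) : ℝ × Xs n) -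
      Sm b cB cF s η (Sum.inl i) ((0 : ℝ), fun _ => 1))) ^ 2 = 0 := by
      refine Finset.sum_eq_zero fun i _ => ?_
      have : Sm b cB cF s η (Sum.inl i) ((w.1, fun _ => 1) : ℝ × Xs n) =
        Sm b cB cF s η (Sum.inl i) ((0 : ℝ), fun _ => 1) := rfl
      rw [this]
      ring
    rw [h4, zero_add]
    calc _ ≤ ∑ _j : Fin n, (η * |s|) ^ 2 := by
          refine Finset.sum_le_sum fun j _ => ?_
          have e1 : Sm b cB cF s η (Sum.inr j) ((w.1, fun _ => 1) : ℝ × Xs n) =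
            al η w.1 * s * sp (fun _ => 1 : Xs n) j := rfl
          have e2 : Sm b cB cF s η (Sum.inr j) ((0 : ℝ), fun _ => (1 : ℤˣ)) =
            al η 0 * s * sp (fun _ => 1 : Xs n) j := rfl
          rw [e1, e2, al_zero hη]
          have e3 : sp (fun _ => 1 : Xs n) j = 1 := by
            unfold sp
            simp
          rw [e3, ← sq_abs]
          refine pow_le_pow_left₀ (abs_nonneg _) ?_ 2
          have e4 : 1 * (al η w.1 * s * 1 - 1 * s * 1) = (al η w.1 - 1) * s := by ring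
          rw [e4, abs_mul]
          exact mul_le_mul_of_nonneg_right (abs_al_sub hη w.1) (abs_nonneg _)
      _ = _ := by
          rw [Finset.sum_const, Finset.card_univ, Fintype.card_fin, nsmul_eq_mul]
  have h5 : (0 : ℝ) ≤ n := Nat.cast_nonneg n
  rw [Fintype.card_fin]
  calc √(n * _) ≤ √(n * (n * (η * |s|) ^ 2)) :=
        Real.sqrt_le_sqrt (mul_le_mul_of_nonneg_left h3 h5)
    _ = √((η * |s| * n) ^ 2) := by
        congr 1
        ring
    _ = η * |s| * n := Real.sqrt_sq (by positivity)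

/-- the error of the hidden level of size `c0` of `n` sites -/
noncomputable def dlt (n : ℕ) (η s c0 : ℝ) : ℝ := 2 * (1 / (|c0| * √n) + η * |s| / |c0|)

/-- **The hidden fields of the amplitude ensemble** (the level `l0` of the private fields is hidden:
no coordinate of the level `l0` is in `K`). -/
theorem hidA {lam : ℝ} (hl : 0 < lam) {η : ℝ} (hη : 0 ≤ η) (c b : ℝ) (cB : LB → ℝ)
    (cF : LF → ℝ) (s : ℝ) {x : ℝ} (hx : x ≤ 1) (hn : 0 < n) {l0 : LF} (hl0 : cF l0 ≠ 0)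
    {K : Finset (Co n LB LF)} (hK : ∀ j, fd LB j l0 ∉ K)
    (a : ((ℝ × Xs n) × (ℝ × Xs n)) × (Co n LB LF → ℝ) → ℝ) (ha : Bm a) (ha1 : ∀ q, |a q| ≤ 1)
    (had : ∀ p, H646.Dep K fun z => a (p, z)) :
    |E2 (muA (Xs n) lam η c) 1 (Sm b cB cF s η) x (fun q => a q *
        ∑ j : Fin n, (sp q.1.1.2 j - sp q.1.2.2 j) / (Fintype.card (Fin n) : ℝ) *
          avm (muA (Xs n) lam η c) 1 (Sm b cB cF s η) (fun w => sp w.2 j) q.2)| ≤
      dlt n η s (cF l0) * ∫ z, Zxm (muA (Xs n) lam η c) 1 (Sm b cB cF s η) x z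
        ∂(gI (Co n LB LF)) := by
  have hG := gmA (n := n) b cB cF s hl hη c
  have : Nonempty (Fin n) := ⟨⟨0, hn⟩⟩
  have h := hid hG 1 hx (σ := spn n) (e := fun j => fd LB j l0) (K := K) (s0 := cF l0)
    (by rwa [one_mul]) (fd_inj n LB l0) hK (fun j w => rfl) (fun j w => sp_mul_self w.2 j)
    (fun j => measurable_sp j) (mnA hl hη c b cB cF s hx l0) a ha ha1 had
  refine h.trans (le_of_eq ?_)
  congr 1
  have hn0 : (0 : ℝ) < n := by exact_mod_cast hn
  have hc0 : 0 < |cF l0| := abs_pos.2 hl0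
  have hr : 0 < √(n : ℝ) := Real.sqrt_pos.2 hn0
  have hr2 : √(n : ℝ) * √n = n := Real.mul_self_sqrt hn0.le
  unfold dlt
  rw [Fintype.card_fin, one_mul]
  have e1 : 1 / (|cF l0| * √(n : ℝ)) = √(n : ℝ) / (|cF l0| * n) := by
    rw [div_eq_div_iff (by positivity) (by positivity)]
    linear_combination (-|cF l0|) * hr2
  rw [e1]
  field_simp

/-- **The second term of the conditional squared magnetisation of a hidden site**, unconditionally,
for all revealed sets which do not meet the hidden sites `Hs` and do not contain the level `l0`. -/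
theorem ex_Ma_A {lam : ℝ} (hl : 0 < lam) {η : ℝ} (hη : 0 ≤ η) (c b : ℝ) (cB : LB → ℝ)
    (cF : LF → ℝ) (s : ℝ) {x : ℝ} (hx : x ≤ 1) {l0 : LF} (hl0 : cF l0 ≠ 0)
    {SB : LB → Finset (Fin n)} {SF : LF → Finset (Fin n)} {G Hs : Finset (Fin n)}
    (hB : ∀ l, Disjoint (SB l) Hs) (hF : ∀ l, Disjoint (SF l) Hs) (hGs : Disjoint G Hs)
    (h0 : SF l0 = ∅) {i0 : Fin n} (hi : i0 ∈ Hs) :
    ex (g1 _) (Zxm (muA (Xs n) lam η c) 1 (Sm b cB cF s η) x)
      (Ma (muA (Xs n) lam η c) 1 (Sm b cB cF s η) x (Kg SB SF G) fun w => sp w.2 i0) ≤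
      1 / √(Hs.card : ℝ) + (1 / (|cF l0| * √n) + η * |s| / |cF l0|) := by
  have hG := gmA (n := n) b cB cF s hl hη c
  have hn : 0 < n := i0.pos
  have h := ex_Ma_le hG 1 x (ksites_g hl η c b cB cF s hB hF hGs) hi
    (δ := dlt n η s (cF l0)) (hidA hl hη c b cB cF s hx hn hl0 fun j hj => ?_)
  · refine h.trans (le_of_eq ?_)
    unfold dlt
    ring
  · rw [fd_mem, h0] at hj
    simp at hj

/-- the block form -/
theorem ex_Ma_K {lam : ℝ} (hl : 0 < lam) {η : ℝ} (hη : 0 ≤ η) (c b : ℝ) (cB : LB → ℝ)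
    (cF : LF → ℝ) (s : ℝ) {x : ℝ} (hx : x ≤ 1) {l0 : LF} (hl0 : cF l0 ≠ 0)
    {A : Finset (Fin n)} {BL : Finset LB} {FL : Finset LF} (h0 : l0 ∉ FL) {i0 : Fin n}
    (hi : i0 ∉ A) :
    ex (g1 _) (Zxm (muA (Xs n) lam η c) 1 (Sm b cB cF s η) x)
      (Ma (muA (Xs n) lam η c) 1 (Sm b cB cF s η) x (Kset A BL FL) fun w => sp w.2 i0) ≤
      1 / √(Aᶜ.card : ℝ) + (1 / (|cF l0| * √n) + η * |s| / |cF l0|) := by
  have hG := gmA (n := n) b cB cF s hl hη c
  have hn : 0 < n := i0.pos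
  have h := ex_Ma_le hG 1 x (ksites hl η c b cB cF s A BL FL) (i0 := i0)
    (Finset.mem_compl.2 hi)
    (δ := dlt n η s (cF l0)) (hidA hl hη c b cB cF s hx hn hl0 fun j hj => ?_)
  · refine h.trans (le_of_eq ?_)
    unfold dlt
    ring
  · rw [fd_memK] at hj
    exact h0 hj.2

end Vale.Agent.P146.H292
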