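import Vale.Agent.P146.H292.VarLin
import Vale.Agent.P146.H355.K3E

/-!
The hidden private fields: the pair overlaps with a third replica are almost constant.

`W1 x w` is the weight planted at `w`; `X z w = ∑ j, σ j w * z (e j)`.
`hid`: for `|a| ≤ 1` which does not depend on the hidden fields,
`|E2 (a ∑ j, (σ j ω₁ - σ j ω₂) / n * ⟨σ j⟩)| ≤ 2 (√n + d0) / (|k s0| n) * ∫ Z ^ x`.
-/

open MeasureTheory ProbabilityTheory Filter Topology

namespace Vale.Agent.P146.H292

open Vale.Agent.P157.Lv Vale.Agent.P146.H425 Vale.Agent.P146.H325 Vale.Agent.P146.R1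
  Vale.Agent.P146.H646 Vale.Agent.P146.H196 Vale.Agent.P146.H347 Vale.Agent.P146.H355

set_option linter.unusedSectionVars false

variable {ι : Type} [Fintype ι] [DecidableEq ι] {Ω : Type} [MeasurableSpace Ω]

/-- the planted weight -/
noncomputable def W1 (μ : Measure Ω) (k : ℝ) (S : ι → Ω → ℝ) (x : ℝ) (w : Ω)
    (z : ι → ℝ) : ℝ := Zxm μ k S (x - 1) z * ezm k S z w

/-- the potential of the planted weight -/
noncomputable def Vw (μ : Measure Ω) (k : ℝ) (S : ι → Ω → ℝ) (x : ℝ) (w : Ω)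
    (z : ι → ℝ) : ℝ := (1 - x) * lzm μ k S z - li (fun e => k * S e w) z

variable {μ : Measure Ω} {k : ℝ} {S : ι → Ω → ℝ} {M0 x : ℝ}

lemma W1_pos (x : ℝ) (w : Ω) (z : ι → ℝ) : 0 < W1 μ k S x w z :=
  mul_pos (Zxm_pos _ _) (ezm_pos _ _)

lemma exp_Vw (k x : ℝ) (w : Ω) (z : ι → ℝ) :
    Real.exp (-Vw μ k S x w z) = W1 μ k S x w z := by
  unfold Vw W1 Zxm ezm li
  rw [← Real.exp_add]
  congr 1
  have : ∑ i, k * S i w * z i = k * ∑ e, S e w * z e := by
    rw [Finset.mul_sum]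
    exact Finset.sum_congr rfl fun e _ => by ring
  rw [this]
  ring

lemma lip_Vw (hG : GM μ S M0) (k x : ℝ) (w : Ω) : Lip (Vw μ k S x w) := by
  have h := ((hG.lip k).const_mul (1 - x)).add ((lip_li fun e => k * S e w).const_mul (-1))
  have e : (fun z => (1 - x) * lzm μ k S z + -1 * li (fun e => k * S e w) z) =
      Vw μ k S x w := by
    funext z
    unfold Vw
    ring
  rwa [e] at h

lemma cvx_Vw (hG : GM μ S M0) (k : ℝ) (hx : x ≤ 1) (w : Ω) :
    ConvexOn ℝ Set.univ (Vw μ k S x w) := by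
  refine ⟨convex_univ, fun y _ y' _ a b ha hb hab => ?_⟩
  have h := hG.cv k a b ha hb hab y y'
  unfold Vw
  have e1 : li (fun e => k * S e w) (a • y + b • y') =
      a * li (fun e => k * S e w) y + b * li (fun e => k * S e w) y' := by
    unfold li
    rw [Finset.mul_sum, Finset.mul_sum, ← Finset.sum_add_distrib]
    refine Finset.sum_congr rfl fun e _ => ?_
    simp only [Pi.add_apply, Pi.smul_apply, smul_eq_mul]
    ring
  rw [e1]
  simp only [smul_eq_mul]
  have h1 := mul_le_mul_of_nonneg_left h (sub_nonneg.2 hx)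
  nlinarith [h1]

/-! ### measurability, integrability -/

lemma meas_W1 (hG : GM μ S M0) (k x : ℝ) :
    Measurable fun q : Ω × (ι → ℝ) => W1 μ k S x q.1 q.2 := by
  unfold W1
  exact ((hG.meas_Zx k (x - 1)).comp measurable_snd).mul (meas_ezm hG k)

lemma W1_bd (hG : GM μ S M0) (k x : ℝ) : ∃ C a : ℝ, 0 ≤ C ∧ 0 ≤ a ∧
    ∀ w z, W1 μ k S x w z ≤ C * Real.exp (a * ‖z‖) := by
  obtain ⟨C, a, hC, ha, hb⟩ := (hG.eg_Zx k (x - 1)).bdd
  refine ⟨C, a + Km ι k M0, hC, ?_, fun w z => ?_⟩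
  · have := hG.Km_nonneg k
    positivity
  · unfold W1
    have h1 : Zxm μ k S (x - 1) z ≤ C * Real.exp (a * ‖z‖) := (le_abs_self _).trans (hb z)
    have h3 : C * Real.exp ((a + Km ι k M0) * ‖z‖) = C * Real.exp (a * ‖z‖) *
        Real.exp (Km ι k M0 * ‖z‖) := by
      rw [add_mul, Real.exp_add]
      ring
    rw [h3]
    exact mul_le_mul h1 (ezm_le hG k z w) (ezm_pos _ _).le (by positivity)

/-- domination by an exponential, uniformly in the parameter -/
lemma int_dom {P : Type} [MeasurableSpace P] {ν : Measure P} [IsFiniteMeasure ν]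
    {Φ : P × (ι → ℝ) → ℝ} (hm : Measurable Φ) {C a : ℝ} (hC : 0 ≤ C) (ha : 0 ≤ a)
    (hb : ∀ q, |Φ q| ≤ C * Real.exp (a * ‖q.2‖)) : Integrable Φ (ν.prod (gI ι)) := by
  have h1 : Integrable (fun z : ι → ℝ => C * Real.exp (a * ‖z‖)) (gI ι) := by
    have h2 : EG fun z : ι → ℝ => C * Real.exp (a * ‖z‖) := by
      refine ⟨by fun_prop, C, a, hC, ha, fun z => ?_⟩
      rw [abs_of_nonneg (by positivity)]
    exact h2.integrable
  have h2 : Integrable (fun q : P × (ι → ℝ) => (1 : ℝ) * (C * Real.exp (a * ‖q.2‖)))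
      (ν.prod (gI ι)) := (integrable_const (1 : ℝ)).mul_prod h1
  refine h2.mono' hm.aestronglyMeasurable (Filter.Eventually.of_forall fun q => ?_)
  rw [Real.norm_eq_abs, one_mul]
  exact hb q

/-! ### the linear form -/

variable {J : Type} [Fintype J] [DecidableEq J] {σ : J → Ω → ℝ} {e : J → ι}

/-- the sum of the hidden fields along the configuration -/
def Xf (σ : J → Ω → ℝ) (e : J → ι) (w : Ω) (z : ι → ℝ) : ℝ := ∑ j, σ j w * z (e j)

/-- its coefficients -/
noncomputable def vv (σ : J → Ω → ℝ) (e : J → ι) (w : Ω) (i : ι) : ℝ :=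
  ∑ j, if e j = i then σ j w else 0

lemma li_vv (σ : J → Ω → ℝ) (e : J → ι) (w : Ω) : li (vv σ e w) = Xf σ e w := by
  funext z
  unfold li vv Xf
  simp only [Finset.sum_mul]
  rw [Finset.sum_comm]
  refine Finset.sum_congr rfl fun j _ => ?_
  rw [Finset.sum_eq_single (e j)]
  · rw [if_pos rfl]
  · intro i _ hi
    rw [if_neg hi.symm, zero_mul]
  · intro h
    exact (h (Finset.mem_univ _)).elim

lemma vv_e (he : Function.Injective e) (w : Ω) (j : J) : vv σ e w (e j) = σ j w := by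
  unfold vv
  rw [Finset.sum_eq_single j]
  · rw [if_pos rfl]
  · intro i _ hi
    rw [if_neg fun h => hi (he h)]
  · intro h
    exact (h (Finset.mem_univ _)).elim

lemma vv_sq (he : Function.Injective e) (hσ : ∀ j w, σ j w * σ j w = 1) (w : Ω) :
    ∑ i, vv σ e w i ^ 2 = Fintype.card J := by
  have h1 : ∑ i, vv σ e w i ^ 2 = li (vv σ e w) (vv σ e w) :=
    Finset.sum_congr rfl fun i _ => by ring
  rw [h1, li_vv]
  unfold Xf
  simp only [vv_e he, hσ, Finset.sum_const, Finset.card_univ, nsmul_eq_mul, mul_one]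

lemma abs_Xf (hσ : ∀ j w, σ j w * σ j w = 1) (w : Ω) (z : ι → ℝ) :
    |Xf σ e w z| ≤ Fintype.card J * ‖z‖ := by
  unfold Xf
  refine (Finset.abs_sum_le_sum_abs _ _).trans ?_
  calc ∑ j, |σ j w * z (e j)| ≤ ∑ _j : J, ‖z‖ := by
        refine Finset.sum_le_sum fun j _ => ?_
        have h1 : |σ j w| = 1 := by
          have := hσ j w
          rw [← abs_mul_abs_self] at this
          nlinarith [abs_nonneg (σ j w)]
        rw [abs_mul, h1, one_mul, ← Real.norm_eq_abs]
        exact norm_le_pi_norm z (e j)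
    _ = _ := by rw [Finset.sum_const, Finset.card_univ, nsmul_eq_mul]

lemma meas_Xf (hm : ∀ j, Measurable (σ j)) :
    Measurable fun q : Ω × (ι → ℝ) => Xf σ e q.1 q.2 := by
  unfold Xf
  exact Finset.measurable_sum _ fun j _ =>
    ((hm j).comp measurable_fst).mul ((measurable_pi_apply (e j)).comp measurable_snd)

/-- **the planted law**: the sum of the hidden fields is concentrated -/
lemma planted (hG : GM μ S M0) (k : ℝ) (hx : x ≤ 1) (he : Function.Injective e)
    (hσ : ∀ j w, σ j w * σ j w = 1) [Nonempty J] {m0 d0 : ℝ} (w : Ω)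
    (hm : |mn (Vw μ k S x w) (Xf σ e w) - m0| ≤ d0) :
    ∫ z, W1 μ k S x w z * |Xf σ e w z - m0| ∂(gI ι) ≤
      (√(Fintype.card J) + d0) * ∫ z, W1 μ k S x w z ∂(gI ι) := by
  set n : ℝ := (Fintype.card J : ℝ) with hn
  have hn0 : 0 < n := by
    rw [hn]
    exact_mod_cast Fintype.card_pos
  have hL := lip_Vw hG k x w
  have h1 := var_li (cvx_Vw hG k hx w) hL (vv σ e w)
  rw [vv_sq he hσ, li_vv, ← hn] at h1
  set m := mn (Vw μ k S x w) (Xf σ e w) with hm'
  simp only [exp_Vw] at h1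
  have hr : 0 < √n := Real.sqrt_pos.2 hn0
  have hr2 : √n * √n = n := Real.mul_self_sqrt hn0.le
  have eX : EG (Xf σ e w) := by
    rw [← li_vv]
    exact eg_li _
  have eW : EG (W1 μ k S x w) := by
    have := eg_mV hL
    simp only [exp_Vw] at this
    exact this
  have eY : EG fun z => Xf σ e w z - m := eX.sub (EG.const m)
  have eY0 : EG fun z => |Xf σ e w z - m0| := (eX.sub (EG.const m0)).abs
  have h2 : ∫ z, W1 μ k S x w z * |Xf σ e w z - m0| ∂(gI ι) ≤
      ∫ z, (1 / (2 * √n)) * (W1 μ k S x w z * (Xf σ e w z - m) ^ 2) +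
        (√n / 2 + d0) * W1 μ k S x w z ∂(gI ι) := by
    refine integral_mono (eW.mul eY0).integrable
      (((eW.mul (eY.pow 2)).const_mul _).add (eW.const_mul _)).integrable fun z => ?_
    simp only
    have hW := W1_pos (μ := μ) (k := k) (S := S) x w z
    set y := Xf σ e w z - m with hy
    have j3 : 1 / (2 * √n) * y ^ 2 + √n / 2 - |y| = (|y| - √n) ^ 2 / (2 * √n) := by
      rw [← sq_abs y]
      field_simp
      ring
    have j4 : 0 ≤ (|y| - √n) ^ 2 / (2 * √n) := by positivity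
    have j5 : |Xf σ e w z - m0| ≤ |y| + d0 := by
      have : Xf σ e w z - m0 = y + (m - m0) := by rw [hy]; ring
      rw [this]
      exact (abs_add_le _ _).trans (by linarith)
    have j6 : |Xf σ e w z - m0| ≤ 1 / (2 * √n) * y ^ 2 + (√n / 2 + d0) := by linarith
    calc W1 μ k S x w z * |Xf σ e w z - m0| ≤
        W1 μ k S x w z * (1 / (2 * √n) * y ^ 2 + (√n / 2 + d0)) :=
          mul_le_mul_of_nonneg_left j6 hW.le
      _ = _ := by ring
  refine h2.trans ?_
  rw [integral_add ((eW.mul (eY.pow 2)).const_mul _).integrable (eW.const_mul _).integrable,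
    integral_const_mul, integral_const_mul]
  have h3 : 1 / (2 * √n) * ∫ z, W1 μ k S x w z * (Xf σ e w z - m) ^ 2 ∂(gI ι) ≤
      √n / 2 * ∫ z, W1 μ k S x w z ∂(gI ι) := by
    have h4 := mul_le_mul_of_nonneg_left h1 (by positivity : (0 : ℝ) ≤ 1 / (2 * √n))
    refine h4.trans (le_of_eq ?_)
    rw [← mul_assoc]
    congr 1
    rw [div_mul_eq_mul_div, one_mul, div_eq_div_iff (by positivity) (by norm_num)]
    linear_combination (-2) * hr2
  linarith

/-! ### marginals of the pair law -/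

lemma W1_av (hG : GM μ S M0) (k x : ℝ) (f : Ω → ℝ) (z : ι → ℝ) :
    ∫ w, W1 μ k S x w z * f w ∂μ = Zxm μ k S x z * avm μ k S f z := by
  have hZ := hG.Z_pos k z
  have h2 : Zxm μ k S x z = Zxm μ k S (x - 1) z * Zm μ k S z := by
    unfold Zxm lzm
    rw [show x * Real.log (Zm μ k S z) = (x - 1) * Real.log (Zm μ k S z) +
      Real.log (Zm μ k S z) by ring, Real.exp_add, Real.exp_log hZ]
  have h1 : (fun w => W1 μ k S x w z * f w) =
      fun w => Zxm μ k S (x - 1) z * (ezm k S z w * f w) := by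
    funext w
    unfold W1
    ring
  rw [h1, integral_const_mul, h2]
  unfold avm
  field_simp

lemma W1_one (hG : GM μ S M0) (k x : ℝ) (z : ι → ℝ) :
    ∫ w, W1 μ k S x w z ∂μ = Zxm μ k S x z := by
  have h := W1_av hG k x (fun _ => 1) z
  simpa only [mul_one, hG.av_one] using h

section marg

variable {F : Ω × (ι → ℝ) → ℝ} {C a : ℝ}

lemma int_W1F (hG : GM μ S M0) (k x : ℝ) (hm : Measurable F) (hC : 0 ≤ C) (ha : 0 ≤ a)
    (hb : ∀ q, |F q| ≤ C * Real.exp (a * ‖q.2‖)) :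
    Integrable (fun q : Ω × (ι → ℝ) => W1 μ k S x q.1 q.2 * F q) (μ.prod (gI ι)) := by
  have := hG.fin
  obtain ⟨D, b, hD, hb0, hb1⟩ := W1_bd hG k x
  refine int_dom ((meas_W1 hG k x).mul hm) (C := D * C) (a := b + a) (by positivity)
    (by positivity) fun q => ?_
  rw [abs_mul, abs_of_pos (W1_pos x q.1 q.2), add_mul, Real.exp_add]
  calc W1 μ k S x q.1 q.2 * |F q| ≤ (D * Real.exp (b * ‖q.2‖)) * (C * Real.exp (a * ‖q.2‖)) :=
        mul_le_mul (hb1 q.1 q.2) (hb q) (abs_nonneg _) (by positivity)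
    _ = _ := by ring

lemma int_W2F (hG : GM μ S M0) (k x : ℝ) {F : (Ω × Ω) × (ι → ℝ) → ℝ} (hm : Measurable F)
    (hC : 0 ≤ C) (ha : 0 ≤ a) (hb : ∀ q, |F q| ≤ C * Real.exp (a * ‖q.2‖)) :
    Integrable (fun q : (Ω × Ω) × (ι → ℝ) => W2 μ k S x q.1 q.2 * F q)
      ((μ.prod μ).prod (gI ι)) := by
  have := hG.fin
  obtain ⟨D, b, hD, hb0, hb1⟩ := W2_bd hG k x
  refine int_dom ((meas_W2 hG k x).mul hm) (C := D * C) (a := b + a) (by positivity)
    (by positivity) fun q => ?_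
  rw [abs_mul, abs_of_pos (W2_pos x q.1 q.2), add_mul, Real.exp_add]
  calc W2 μ k S x q.1 q.2 * |F q| ≤ (D * Real.exp (b * ‖q.2‖)) * (C * Real.exp (a * ‖q.2‖)) :=
        mul_le_mul (hb1 q.1 q.2) (hb q) (abs_nonneg _) (by positivity)
    _ = _ := by ring

lemma marg1 (hG : GM μ S M0) (k x : ℝ) (hm : Measurable F) (hC : 0 ≤ C) (ha : 0 ≤ a)
    (hb : ∀ q, |F q| ≤ C * Real.exp (a * ‖q.2‖)) :
    ∫ q, W2 μ k S x q.1 q.2 * F (q.1.1, q.2) ∂((μ.prod μ).prod (gI ι)) =
      ∫ w, ∫ z, W1 μ k S x w z * F (w, z) ∂(gI ι) ∂μ := by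
  have := hG.fin
  have i1 : Integrable (fun q : (Ω × Ω) × (ι → ℝ) => W2 μ k S x q.1 q.2 * F (q.1.1, q.2))
      ((μ.prod μ).prod (gI ι)) :=
    int_W2F hG k x (F := fun q => F (q.1.1, q.2))
      (hm.comp ((measurable_fst.comp measurable_fst).prodMk measurable_snd)) hC ha fun q =>
        hb (q.1.1, q.2)
  have i2 := int_W1F hG k x hm hC ha hb
  rw [integral_prod_symm _ i1, ← integral_prod _ i2, integral_prod_symm _ i2]
  refine integral_congr_ae (Filter.Eventually.of_forall fun z => ?_)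
  simp only
  have h1 := int_p hG k x (f := fun w => F (w, z)) (g := fun _ => 1) z
  simp only [mul_one, hG.av_one] at h1
  rw [h1, W1_av hG k x (fun w => F (w, z))]

lemma marg2 (hG : GM μ S M0) (k x : ℝ) (hm : Measurable F) (hC : 0 ≤ C) (ha : 0 ≤ a)
    (hb : ∀ q, |F q| ≤ C * Real.exp (a * ‖q.2‖)) :
    ∫ q, W2 μ k S x q.1 q.2 * F (q.1.2, q.2) ∂((μ.prod μ).prod (gI ι)) =
      ∫ w, ∫ z, W1 μ k S x w z * F (w, z) ∂(gI ι) ∂μ := by
  have := hG.fin
  have i1 : Integrable (fun q : (Ω × Ω) × (ι → ℝ) => W2 μ k S x q.1 q.2 * F (q.1.2, q.2))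
      ((μ.prod μ).prod (gI ι)) :=
    int_W2F hG k x (F := fun q => F (q.1.2, q.2))
      (hm.comp ((measurable_snd.comp measurable_fst).prodMk measurable_snd)) hC ha fun q =>
        hb (q.1.2, q.2)
  have i2 := int_W1F hG k x hm hC ha hb
  rw [integral_prod_symm _ i1, ← integral_prod _ i2, integral_prod_symm _ i2]
  refine integral_congr_ae (Filter.Eventually.of_forall fun z => ?_)
  simp only
  have h1 := int_p hG k x (f := fun _ => 1) (g := fun w => F (w, z)) z
  simp only [one_mul, hG.av_one] at h1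
  rw [h1, W1_av hG k x (fun w => F (w, z))]

end marg

/-- the mean deviation of the sum of the hidden fields, under the law of one replica -/
lemma dev_int (hG : GM μ S M0) (k : ℝ) (hx : x ≤ 1) (he : Function.Injective e)
    (hσ : ∀ j w, σ j w * σ j w = 1) (hms : ∀ j, Measurable (σ j)) [Nonempty J] {m0 d0 : ℝ}
    (hm : ∀ w, |mn (Vw μ k S x w) (Xf σ e w) - m0| ≤ d0) :
    ∫ w, ∫ z, W1 μ k S x w z * |Xf σ e w z - m0| ∂(gI ι) ∂μ ≤
      (√(Fintype.card J) + d0) * ∫ z, Zxm μ k S x z ∂(gI ι) := by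
  have := hG.fin
  have hb : ∀ q : Ω × (ι → ℝ), |(|Xf σ e q.1 q.2 - m0| : ℝ)| ≤
      (Fintype.card J + |m0|) * Real.exp (1 * ‖q.2‖) := by
    intro q
    rw [abs_abs, one_mul]
    have h2 : ‖q.2‖ ≤ Real.exp ‖q.2‖ := (Real.add_one_le_exp ‖q.2‖).trans' (by linarith)
    have h3 : 1 ≤ Real.exp ‖q.2‖ := Real.one_le_exp (norm_nonneg _)
    have h4 := abs_Xf (e := e) hσ q.1 q.2
    have h5 := abs_sub (Xf σ e q.1 q.2) m0
    have h6 : (0 : ℝ) ≤ Fintype.card J := Nat.cast_nonneg _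
    nlinarith [abs_nonneg m0]
  have hmF : Measurable fun q : Ω × (ι → ℝ) => |Xf σ e q.1 q.2 - m0| :=
    ((meas_Xf hms).sub_const m0).abs
  have i1 := int_W1F hG k x hmF (by positivity) zero_le_one hb
  have i2 : Integrable (fun q : Ω × (ι → ℝ) => W1 μ k S x q.1 q.2 * 1) (μ.prod (gI ι)) :=
    int_W1F hG k x (F := fun _ => 1) measurable_const zero_le_one (le_refl (0 : ℝ)) fun q => by
      simp
  simp only [mul_one] at i2
  have h1 : ∫ w, ∫ z, W1 μ k S x w z * |Xf σ e w z - m0| ∂(gI ι) ∂μ ≤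
      ∫ w, (√(Fintype.card J) + d0) * ∫ z, W1 μ k S x w z ∂(gI ι) ∂μ := by
    refine integral_mono i1.integral_prod_left (i2.integral_prod_left.const_mul _) fun w => ?_
    exact planted hG k hx he hσ w (hm w)
  refine h1.trans (le_of_eq ?_)
  rw [integral_const_mul]
  congr 1
  rw [← integral_prod _ i2, integral_prod_symm _ i2]
  refine integral_congr_ae (Filter.Eventually.of_forall fun z => ?_)
  exact W1_one hG k x z

/-! ### integration by parts in the hidden fields -/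

lemma pd_ezm (k : ℝ) (S : ι → Ω → ℝ) (i : ι) (w : Ω) :
    PD i (fun z => ezm k S z w) (fun z => k * (ezm k S z w * S i w)) :=
  pd_of_fd (F1 := fun i z => k * (ezm k S z w * S i w)) (fun z => fd_ezm k S z w) i

lemma eg_ezm (k : ℝ) (S : ι → Ω → ℝ) (w : Ω) : EG fun z => ezm k S z w := by
  have h := (lip_li fun e => S e w).exp_eg k
  exact h

lemma pd_W2 (hG : GM μ S M0) (k x : ℝ) (p : Ω × Ω) (i : ι) : PD i (W2 μ k S x p)
    (fun z => W2 μ k S x p z * (k * ((x - 2) * avm μ k S (S i) z + S i p.1 + S i p.2))) := by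
  have h := (pd_of_fd (hG.fd_Zx k (x - 2)) i).mul ((pd_ezm k S i p.1).mul (pd_ezm k S i p.2))
  have e : (fun z => k * ((x - 2) * (Zxm μ k S (x - 2) z * avm μ k S (S i) z)) *
      (ezm k S z p.1 * ezm k S z p.2) + Zxm μ k S (x - 2) z *
        (k * (ezm k S z p.1 * S i p.1) * ezm k S z p.2 +
          ezm k S z p.1 * (k * (ezm k S z p.2 * S i p.2)))) =
      fun z => W2 μ k S x p z * (k * ((x - 2) * avm μ k S (S i) z + S i p.1 + S i p.2)) := by
    funext z
    unfold W2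
    ring
  rw [← e]
  exact h

/-- integration by parts in the hidden fields, for a fixed pair -/
lemma ibp_pair (hG : GM μ S M0) (k x : ℝ) {K : Finset ι} {s0 : ℝ} (heK : ∀ j, e j ∉ K)
    (hS : ∀ j w, S (e j) w = s0 * σ j w) (hσ : ∀ j w, σ j w * σ j w = 1)
    (hms : ∀ j, Measurable (σ j)) {b : (ι → ℝ) → ℝ} (hb : BM b) (hd : H646.Dep K b)
    (p : Ω × Ω) :
    ∫ z, W2 μ k S x p z * (b z * (Xf σ e p.1 z - Xf σ e p.2 z)) ∂(gI ι) =
      (k * s0 * (x - 2)) * ∫ z, W2 μ k S x p z *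
        (b z * ∑ j, (σ j p.1 - σ j p.2) * avm μ k S (σ j) z) ∂(gI ι) := by
  obtain ⟨C, hC⟩ := hb.bd
  have eb : EG b := EG.of_bdd hb.meas hC
  have eW := eg_W2 hG k x p
  have bσ : ∀ j, Bm (σ j) := fun j => Bm.of (hms j) (C := 1) fun w => by
    have := hσ j w
    rw [← abs_mul_abs_self] at this
    nlinarith [abs_nonneg (σ j w)]
  have eA : ∀ j, EG (avm μ k S (σ j)) := fun j => hG.eg_av k (bσ j)
  have key : ∀ j, ∫ z, W2 μ k S x p z * (b z * ((σ j p.1 - σ j p.2) * z (e j))) ∂(gI ι) =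
      ∫ z, (k * s0 * (x - 2)) * (W2 μ k S x p z *
        (b z * ((σ j p.1 - σ j p.2) * avm μ k S (σ j) z))) ∂(gI ι) := by
    intro j
    have h0 : PD (e j) b (fun _ => 0) := by
      refine PD.of_indep fun y t => ?_
      refine Dep.congr hd fun i hi => ?_
      rw [Function.update_of_ne]
      rintro rfl
      exact heK j hi
    have h1 := (pd_W2 hG k x p (e j)).mul h0
    have h2 : (fun y => W2 μ k S x p y * (k * ((x - 2) * avm μ k S (S (e j)) y + S (e j) p.1 +
        S (e j) p.2)) * b y + W2 μ k S x p y * 0) = fun y => (W2 μ k S x p y *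
        (k * ((x - 2) * avm μ k S (S (e j)) y + S (e j) p.1 + S (e j) p.2))) * b y := by
      funext y
      ring
    rw [h2] at h1
    have h3 := h1.stein (eW.mul eb) ((eW.mul ((((((hG.eg_av k (hG.bS (e j))).const_mul (x - 2)).add
      (EG.const _)).add (EG.const _)).const_mul k))).mul eb)
    have h4 : avm μ k S (S (e j)) = fun z => s0 * avm μ k S (σ j) z := by
      funext z
      rw [← H196.av_mul]
      congr 1
      funext w
      exact hS j w
    rw [h4] at h3
    have h5 : ∫ z, W2 μ k S x p z * (b z * ((σ j p.1 - σ j p.2) * z (e j))) ∂(gI ι) =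
        (σ j p.1 - σ j p.2) * ∫ z, z (e j) * (W2 μ k S x p z * b z) ∂(gI ι) := by
      rw [← integral_const_mul]
      refine integral_congr_ae (Filter.Eventually.of_forall fun z => ?_)
      simp only
      ring
    rw [h5, h3, ← integral_const_mul]
    refine integral_congr_ae (Filter.Eventually.of_forall fun z => ?_)
    simp only [hS]
    have e1 := hσ j p.1
    have e2 := hσ j p.2
    linear_combination (k * s0 * W2 μ k S x p z * b z) * (e1 - e2)
  have i1 : ∀ j, Integrable (fun z => W2 μ k S x p z *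
      (b z * ((σ j p.1 - σ j p.2) * z (e j)))) (gI ι) := fun j =>
    (eW.mul (eb.mul ((EG.coord (e j)).const_mul _))).integrable
  have i2 : ∀ j, Integrable (fun z => (k * s0 * (x - 2)) * (W2 μ k S x p z *
        (b z * ((σ j p.1 - σ j p.2) * avm μ k S (σ j) z)))) (gI ι) := fun j =>
    ((eW.mul (eb.mul ((eA j).const_mul _))).const_mul _).integrable
  have h6 : ∫ z, W2 μ k S x p z * (b z * (Xf σ e p.1 z - Xf σ e p.2 z)) ∂(gI ι) =
      ∑ j, ∫ z, W2 μ k S x p z * (b z * ((σ j p.1 - σ j p.2) * z (e j))) ∂(gI ι) := by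
    rw [← integral_finsetSum _ fun j _ => i1 j]
    refine integral_congr_ae (Filter.Eventually.of_forall fun z => ?_)
    simp only [← Finset.mul_sum]
    congr 2
    unfold Xf
    rw [← Finset.sum_sub_distrib]
    exact Finset.sum_congr rfl fun j _ => by ring
  rw [h6, Finset.sum_congr rfl fun j _ => key j, ← integral_finsetSum _ fun j _ => i2 j,
    ← integral_const_mul]
  refine integral_congr_ae (Filter.Eventually.of_forall fun z => ?_)
  simp only [← Finset.mul_sum]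

/-- **The hidden fields.** For `|a| ≤ 1` which does not depend on the hidden coordinates `e j`. -/
theorem hid (hG : GM μ S M0) (k : ℝ) (hx : x ≤ 1) {K : Finset ι} {s0 : ℝ}
    (hs : k * s0 ≠ 0) (he : Function.Injective e) (heK : ∀ j, e j ∉ K)
    (hS : ∀ j w, S (e j) w = s0 * σ j w) (hσ : ∀ j w, σ j w * σ j w = 1)
    (hms : ∀ j, Measurable (σ j)) [Nonempty J] {m0 d0 : ℝ}
    (hm : ∀ w, |mn (Vw μ k S x w) (Xf σ e w) - m0| ≤ d0)
    (a : (Ω × Ω) × (ι → ℝ) → ℝ) (ha : Bm a) (ha1 : ∀ q, |a q| ≤ 1)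
    (had : ∀ p, H646.Dep K fun z => a (p, z)) :
    |E2 μ k S x (fun q => a q * ∑ j, (σ j q.1.1 - σ j q.1.2) / (Fintype.card J : ℝ) *
        avm μ k S (σ j) q.2)| ≤
      (2 * (√(Fintype.card J) + d0) / (|k * s0| * Fintype.card J)) *
        ∫ z, Zxm μ k S x z ∂(gI ι) := by
  have := hG.fin
  set n : ℝ := (Fintype.card J : ℝ) with hn
  have hn0 : 0 < n := by
    rw [hn]
    exact_mod_cast Fintype.card_pos
  have bσ : ∀ j, Bm (σ j) := fun j => Bm.of (hms j) (C := 1) fun w => by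
    have := hσ j w
    rw [← abs_mul_abs_self] at this
    nlinarith [abs_nonneg (σ j w)]
  set c : ℝ := 1 / (k * s0 * (x - 2) * n) with hc
  have hx2 : x - 2 ≠ 0 := by
    intro h
    linarith
  -- the two functions
  have hbm : Bm fun q : (Ω × Ω) × (ι → ℝ) => a q * ∑ j, (σ j q.1.1 - σ j q.1.2) / n *
      avm μ k S (σ j) q.2 := by
    refine ha.mul (Bm.sum _ fun j _ => Bm.mul ?_ (bm_z (bm hG k (bσ j))))
    have h1 := ((bm_1 (ι := ι) (bσ j)).sub (bm_2 (bσ j))).const_mul (1 / n)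
    have h2 : (fun q : (Ω × Ω) × (ι → ℝ) => (σ j q.1.1 - σ j q.1.2) / n) =
        fun q => 1 / n * (σ j q.1.1 - σ j q.1.2) := by
      funext q
      ring
    rw [h2]
    exact h1
  rw [E2_pz hG k x hbm]
  have e1 : ∀ p : Ω × Ω, ∫ z, W2 μ k S x p z * (a (p, z) * ∑ j, (σ j p.1 - σ j p.2) / n *
      avm μ k S (σ j) z) ∂(gI ι) =
      c * ∫ z, W2 μ k S x p z * (a (p, z) * (Xf σ e p.1 z - Xf σ e p.2 z)) ∂(gI ι) := by
    intro p
    rw [ibp_pair hG k x heK hS hσ hms (bm_sec ha p) (had p) p, ← mul_assoc,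
      ← integral_const_mul]
    refine integral_congr_ae (Filter.Eventually.of_forall fun z => ?_)
    simp only
    have h1 : ∑ j, (σ j p.1 - σ j p.2) / n * avm μ k S (σ j) z =
        (1 / n) * ∑ j, (σ j p.1 - σ j p.2) * avm μ k S (σ j) z := by
      rw [Finset.mul_sum]
      exact Finset.sum_congr rfl fun j _ => by ring
    rw [h1, hc]
    have h2 : 1 / (k * s0 * (x - 2) * n) * (k * s0 * (x - 2)) = 1 / n := by
      have h3 : k * s0 * (x - 2) ≠ 0 := mul_ne_zero hs hx2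
      rw [one_div, mul_inv, mul_comm, ← mul_assoc, mul_inv_cancel₀ h3, one_mul, one_div]
    rw [h2]
    ring
  simp only [e1]
  rw [integral_const_mul, abs_mul]
  -- domination
  have hXm := meas_Xf (e := e) hms
  have hbX : ∀ (w : Ω) (z : ι → ℝ), |Xf σ e w z| ≤ n * Real.exp (1 * ‖z‖) := by
    intro w z
    rw [one_mul]
    have h2 : ‖z‖ ≤ Real.exp ‖z‖ := (Real.add_one_le_exp ‖z‖).trans' (by linarith)
    exact (abs_Xf (e := e) hσ w z).trans (mul_le_mul_of_nonneg_left h2 hn0.le)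
  have hm1 : Measurable fun q : (Ω × Ω) × (ι → ℝ) => Xf σ e q.1.1 q.2 :=
    hXm.comp ((measurable_fst.comp measurable_fst).prodMk measurable_snd)
  have hm2 : Measurable fun q : (Ω × Ω) × (ι → ℝ) => Xf σ e q.1.2 q.2 :=
    hXm.comp ((measurable_snd.comp measurable_fst).prodMk measurable_snd)
  have hbY : ∀ (w : Ω) (z : ι → ℝ), |(|Xf σ e w z - m0| : ℝ)| ≤
      (n + |m0|) * Real.exp (1 * ‖z‖) := by
    intro w z
    rw [abs_abs]
    have h5 := abs_sub (Xf σ e w z) m0
    have h3 : 1 ≤ Real.exp (1 * ‖z‖) := Real.one_le_exp (by rw [one_mul]; exact norm_nonneg _)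
    have h4 := hbX w z
    nlinarith [abs_nonneg m0]
  have i0 : Integrable (fun q : (Ω × Ω) × (ι → ℝ) => W2 μ k S x q.1 q.2 *
      (a q * (Xf σ e q.1.1 q.2 - Xf σ e q.1.2 q.2))) ((μ.prod μ).prod (gI ι)) := by
    refine int_W2F hG k x (ha.meas.mul (hm1.sub hm2)) (C := 2 * n) (a := 1) (by positivity)
      zero_le_one fun q => ?_
    rw [abs_mul]
    have h1 := hbX q.1.1 q.2
    have h2 := hbX q.1.2 q.2
    have h3 := abs_sub (Xf σ e q.1.1 q.2) (Xf σ e q.1.2 q.2)
    calc |a q| * |Xf σ e q.1.1 q.2 - Xf σ e q.1.2 q.2| ≤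
        1 * (n * Real.exp (1 * ‖q.2‖) + n * Real.exp (1 * ‖q.2‖)) :=
          mul_le_mul (ha1 q) (by linarith) (abs_nonneg _) zero_le_one
      _ = _ := by ring
  have hF : Measurable fun q : Ω × (ι → ℝ) => |Xf σ e q.1 q.2 - m0| :=
    (hXm.sub_const m0).abs
  have i1 : Integrable (fun q : (Ω × Ω) × (ι → ℝ) => W2 μ k S x q.1 q.2 *
      |Xf σ e q.1.1 q.2 - m0|) ((μ.prod μ).prod (gI ι)) :=
    int_W2F hG k x ((hm1.sub_const m0).abs) (by positivity) zero_le_one fun q => hbY q.1.1 q.2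
  have i2 : Integrable (fun q : (Ω × Ω) × (ι → ℝ) => W2 μ k S x q.1 q.2 *
      |Xf σ e q.1.2 q.2 - m0|) ((μ.prod μ).prod (gI ι)) :=
    int_W2F hG k x ((hm2.sub_const m0).abs) (by positivity) zero_le_one fun q => hbY q.1.2 q.2
  have hA1 := marg1 hG k x hF (by positivity) zero_le_one fun q => hbY q.1 q.2
  have hA2 := marg2 hG k x hF (by positivity) zero_le_one fun q => hbY q.1 q.2
  have hD := dev_int hG k hx he hσ hms hm
  rw [← hn] at hD
  have e2 : |∫ p, ∫ z, W2 μ k S x p z * (a (p, z) * (Xf σ e p.1 z - Xf σ e p.2 z))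
      ∂(gI ι) ∂(μ.prod μ)| ≤ 2 * ((√n + d0) * ∫ z, Zxm μ k S x z ∂(gI ι)) := by
    rw [← integral_prod _ i0]
    refine abs_integral_le_integral_abs.trans ?_
    refine (integral_mono i0.abs (i1.add i2) fun q => ?_).trans ?_
    · simp only [Pi.add_apply]
      rw [abs_mul, abs_mul, abs_of_pos (W2_pos x q.1 q.2), ← mul_add]
      refine mul_le_mul_of_nonneg_left ?_ (W2_pos x q.1 q.2).le
      have h1 : Xf σ e q.1.1 q.2 - Xf σ e q.1.2 q.2 =
          (Xf σ e q.1.1 q.2 - m0) - (Xf σ e q.1.2 q.2 - m0) := by ring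
      rw [h1]
      have h3 := abs_sub (Xf σ e q.1.1 q.2 - m0) (Xf σ e q.1.2 q.2 - m0)
      calc |a q| * |Xf σ e q.1.1 q.2 - m0 - (Xf σ e q.1.2 q.2 - m0)| ≤
          1 * |Xf σ e q.1.1 q.2 - m0 - (Xf σ e q.1.2 q.2 - m0)| :=
            mul_le_mul_of_nonneg_right (ha1 q) (abs_nonneg _)
        _ ≤ _ := by rw [one_mul]; exact h3
    · rw [integral_add' i1 i2, hA1, hA2]
      linarith
  have hc2 : |c| ≤ 1 / (|k * s0| * n) := by
    rw [hc, abs_div, abs_one, abs_mul, abs_mul, abs_of_pos hn0]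
    have h1 : 1 ≤ |x - 2| := by
      rw [abs_of_neg (by linarith)]
      linarith
    have h2 : 0 < |k * s0| := abs_pos.2 hs
    refine one_div_le_one_div_of_le (by positivity) ?_
    have h3 : |k * s0| * 1 ≤ |k * s0| * |x - 2| := mul_le_mul_of_nonneg_left h1 h2.le
    nlinarith
  calc |c| * |∫ p, ∫ z, W2 μ k S x p z * (a (p, z) * (Xf σ e p.1 z - Xf σ e p.2 z))
      ∂(gI ι) ∂(μ.prod μ)| ≤ (1 / (|k * s0| * n)) *
        (2 * ((√n + d0) * ∫ z, Zxm μ k S x z ∂(gI ι))) :=
        mul_le_mul hc2 e2 (abs_nonneg _) (by positivity)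
    _ = _ := by ring

/-! ### the planted means -/

/-- the planted mean is invariant under the symmetries -/
lemma mn_sym {c : Equiv.Perm ι} {ε : ι → ℝ} {T : Ω → Ω} (h : Sym μ S c ε T) (k x : ℝ) (w : Ω)
    (hT : ∀ z, Xf σ e (T w) (ac c ε z) = Xf σ e w z) :
    mn (Vw μ k S x (T w)) (Xf σ e (T w)) = mn (Vw μ k S x w) (Xf σ e w) := by
  have hW : ∀ z, W1 μ k S x (T w) (ac c ε z) = W1 μ k S x w z := fun z => by
    unfold W1
    rw [h.Zx, h.ez]
  unfold mn
  simp only [exp_Vw]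
  rw [← integral_ac c h.sq (fun z => W1 μ k S x (T w) z * Xf σ e (T w) z),
    ← integral_ac c h.sq (fun z => W1 μ k S x (T w) z)]
  simp only [hW, hT]

lemma mn_diff_le (hG : GM μ S M0) (k : ℝ) (hx : x ≤ 1) (he : Function.Injective e)
    (hσ : ∀ j w, σ j w * σ j w = 1) {w w' : Ω} (hw : ∀ j, σ j w' = σ j w)
    (hS : ∀ j, S (e j) w' = S (e j) w) :
    mn (Vw μ k S x w') (Xf σ e w') - mn (Vw μ k S x w) (Xf σ e w) ≤
      √(Fintype.card J * ∑ i, (k * (S i w' - S i w)) ^ 2) := by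
  have hv : vv σ e w' = vv σ e w := by
    funext i
    unfold vv
    exact Finset.sum_congr rfl fun j _ => by rw [hw]
  have h := mn_tilt (cvx_Vw hG k hx w) (lip_Vw hG k x w) (v := vv σ e w)
    (p := fun i => k * (S i w' - S i w)) ?_
  · rw [vv_sq he hσ] at h
    have e1 : (fun u => Vw μ k S x w u - li (fun i => k * (S i w' - S i w)) u) =
        Vw μ k S x w' := by
      funext u
      unfold Vw
      have : li (fun i => k * (S i w' - S i w)) u = li (fun i => k * S i w') u -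
          li (fun i => k * S i w) u := by
        unfold li
        rw [← Finset.sum_sub_distrib]
        exact Finset.sum_congr rfl fun i _ => by ring
      rw [this]
      ring
    have hX : Xf σ e w' = Xf σ e w := by
      rw [← li_vv, ← li_vv, hv]
    rw [e1, li_vv] at h
    rw [hX]
    exact h
  · have : ∑ i, vv σ e w i * (k * (S i w' - S i w)) =
        li (vv σ e w) (fun i => k * (S i w' - S i w)) := rfl
    rw [this, li_vv]
    unfold Xf
    simp only [hS, sub_self, mul_zero, Finset.sum_const_zero]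

/-- **the planted means of two configurations with the same spins** -/
theorem mn_diff (hG : GM μ S M0) (k : ℝ) (hx : x ≤ 1) (he : Function.Injective e)
    (hσ : ∀ j w, σ j w * σ j w = 1) {w w' : Ω} (hw : ∀ j, σ j w' = σ j w)
    (hS : ∀ j, S (e j) w' = S (e j) w) :
    |mn (Vw μ k S x w') (Xf σ e w') - mn (Vw μ k S x w) (Xf σ e w)| ≤
      √(Fintype.card J * ∑ i, (k * (S i w' - S i w)) ^ 2) := by
  rw [abs_le]
  constructor
  · have h := mn_diff_le hG k hx he hσ (w := w') (w' := w) (fun j => (hw j).symm)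
      fun j => (hS j).symm
    have e1 : ∑ i, (k * (S i w - S i w')) ^ 2 = ∑ i, (k * (S i w' - S i w)) ^ 2 :=
      Finset.sum_congr rfl fun i _ => by ring
    rw [e1] at h
    linarith
  · exact mn_diff_le hG k hx he hσ hw hS

end Vale.Agent.P146.H292
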