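import Vale.Agent.P146.H292.HidF
import Vale.Agent.P146.H281.U1
import Vale.Agent.P146.H355.Dev

/-!
The hidden fields in the ensemble `U` (any thermal space, several modulated levels).

The plain levels enter the energies only through their sum, so the planted mean of one plain level
is proportional to the planted mean of the sum of all the plain levels; its dependence on the
amplitudes is therefore of relative size `η`.
-/

open MeasureTheory ProbabilityTheory Filter Topology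

namespace Vale.Agent.P146.H292

open Vale.Agent.P157.Lv Vale.Agent.P146.H425 Vale.Agent.P146.H325 Vale.Agent.P146.H646
  Vale.Agent.P146.H196 Vale.Agent.P146.H347 Vale.Agent.P146.H475 Vale.Agent.P146.H816
  Vale.Agent.P146.H355

set_option linter.unusedSectionVars false

/-! ### planted means of linear forms -/

section gen

variable {ι : Type} [Fintype ι] [DecidableEq ι] {Ω : Type} [MeasurableSpace Ω]
  {μ : Measure Ω} {k : ℝ} {S : ι → Ω → ℝ} {M0 x : ℝ}

lemma eg_W1 (hG : GM μ S M0) (k x : ℝ) (w : Ω) : EG (W1 μ k S x w) := by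
  have := eg_mV (lip_Vw hG k x w)
  simp only [exp_Vw] at this
  exact this

lemma pd_W1 (hG : GM μ S M0) (k x : ℝ) (w : Ω) (i : ι) : PD i (W1 μ k S x w)
    (fun z => W1 μ k S x w z * (k * ((x - 1) * avm μ k S (S i) z + S i w))) := by
  have h := (pd_of_fd (hG.fd_Zx k (x - 1)) i).mul (pd_ezm k S i w)
  have e : (fun z => k * ((x - 1) * (Zxm μ k S (x - 1) z * avm μ k S (S i) z)) *
      ezm k S z w + Zxm μ k S (x - 1) z * (k * (ezm k S z w * S i w))) =
      fun z => W1 μ k S x w z * (k * ((x - 1) * avm μ k S (S i) z + S i w)) := by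
    funext z
    unfold W1
    ring
  rw [← e]
  exact h

/-- a linear form which is orthogonal to all the energies has mean zero -/
lemma mn_zero (hG : GM μ S M0) (k x : ℝ) (w : Ω) {g : ι → ℝ}
    (hg : ∀ w', ∑ i, g i * S i w' = 0) : ∫ z, W1 μ k S x w z * li g z ∂(gI ι) = 0 := by
  have eW := eg_W1 hG k x w
  have e1 : ∀ i, ∫ z, W1 μ k S x w z * (g i * z i) ∂(gI ι) =
      ∫ z, W1 μ k S x w z * (g i * (k * ((x - 1) * avm μ k S (S i) z + S i w))) ∂(gI ι) := by
    intro i
    have h1 := (pd_W1 hG k x w i).stein eW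
      (eW.mul ((((hG.eg_av k (hG.bS i)).const_mul (x - 1)).add (EG.const _)).const_mul k))
    have h2 : ∫ z, W1 μ k S x w z * (g i * z i) ∂(gI ι) =
        g i * ∫ z, z i * W1 μ k S x w z ∂(gI ι) := by
      rw [← integral_const_mul]
      refine integral_congr_ae (Filter.Eventually.of_forall fun z => ?_)
      simp only
      ring
    rw [h2, h1, ← integral_const_mul]
    refine integral_congr_ae (Filter.Eventually.of_forall fun z => ?_)
    simp only
    ring
  have e2 : ∀ z, ∑ i, g i * avm μ k S (S i) z = 0 := by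
    intro z
    have h1 : avm μ k S (fun w' => ∑ i, g i * S i w') z = 0 := by
      have h2 : (fun w' => ∑ i, g i * S i w') = fun _ => (0 : ℝ) := by
        funext w'
        exact hg w'
      rw [h2, hG.av_const]
    rw [hG.av_sum k _ fun i _ => (hG.bS i).const_mul _] at h1
    rw [← h1]
    exact Finset.sum_congr rfl fun i _ => (H196.av_mul _ _ _ _ _ _).symm
  have h3 : ∫ z, W1 μ k S x w z * li g z ∂(gI ι) =
      ∑ i, ∫ z, W1 μ k S x w z * (g i * z i) ∂(gI ι) := by
    rw [← integral_finsetSum _ fun i _ => (eW.mul ((EG.coord i).const_mul _)).integrable]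
    refine integral_congr_ae (Filter.Eventually.of_forall fun z => ?_)
    simp only [← Finset.mul_sum]
    rfl
  rw [h3, Finset.sum_congr rfl fun i _ => e1 i, ← integral_finsetSum _ fun i _ => (eW.mul
    (((((hG.eg_av k (hG.bS i)).const_mul (x - 1)).add (EG.const _)).const_mul k).const_mul
      _)).integrable]
  have h4 : ∀ z, ∑ i, W1 μ k S x w z * (g i * (k * ((x - 1) * avm μ k S (S i) z + S i w))) =
      0 := by
    intro z
    have h5 : ∑ i, W1 μ k S x w z * (g i * (k * ((x - 1) * avm μ k S (S i) z + S i w))) =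
        W1 μ k S x w z * k * ((x - 1) * (∑ i, g i * avm μ k S (S i) z) +
          ∑ i, g i * S i w) := by
      rw [Finset.mul_sum, ← Finset.sum_add_distrib, Finset.mul_sum]
      exact Finset.sum_congr rfl fun i _ => by ring
    rw [h5, e2, hg]
    ring
  simp only [h4, integral_zero]

/-- proportional planted means -/
lemma mn_prop (hG : GM μ S M0) (k x : ℝ) (w : Ω) {v f : ι → ℝ} {α : ℝ}
    (h : ∀ w', ∑ i, (v i - α * f i) * S i w' = 0) :
    mn (Vw μ k S x w) (li v) = α * mn (Vw μ k S x w) (li f) := by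
  have h1 := mn_zero hG k x w (g := fun i => v i - α * f i) h
  have eW := eg_W1 hG k x w
  unfold mn
  simp only [exp_Vw]
  rw [← mul_div_assoc]
  congr 1
  have e1 : (fun z => W1 μ k S x w z * li v z) = fun z =>
      W1 μ k S x w z * li (fun i => v i - α * f i) z + α * (W1 μ k S x w z * li f z) := by
    funext z
    have : li v z = li (fun i => v i - α * f i) z + α * li f z := by
      unfold li
      rw [Finset.mul_sum, ← Finset.sum_add_distrib]
      exact Finset.sum_congr rfl fun i _ => by ring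
    rw [this]
    ring
  rw [e1, integral_add (eW.mul (eg_li _)).integrable ((eW.mul (eg_li _)).const_mul _).integrable,
    h1, zero_add, integral_const_mul]

/-- tilt of the energies which does not touch `f` -/
lemma mn_til (hG : GM μ S M0) (k : ℝ) (hx : x ≤ 1) {w w' : Ω} {f : ι → ℝ}
    (hf : ∑ i, f i * (S i w' - S i w) = 0) :
    mn (Vw μ k S x w') (li f) - mn (Vw μ k S x w) (li f) ≤
      √((∑ i, f i ^ 2) * ∑ i, (k * (S i w' - S i w)) ^ 2) := by
  have h := mn_tilt (cvx_Vw hG k hx w) (lip_Vw hG k x w) (v := f)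
    (p := fun i => k * (S i w' - S i w)) ?_
  · have e1 : (fun u => Vw μ k S x w u - li (fun i => k * (S i w' - S i w)) u) =
        Vw μ k S x w' := by
      funext u
      unfold Vw
      have : li (fun i => k * (S i w' - S i w)) u = li (fun i => k * S i w') u -
          li (fun i => k * S i w) u := by
        unfold li
        rw [← Finset.sum_sub_distrib]
        exact Finset.sum_congr rfl fun i _ => by ring
      rw [this]
      ring
    rw [e1] at h
    exact h
  · have : ∑ i, f i * (k * (S i w' - S i w)) = k * ∑ i, f i * (S i w' - S i w) := by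
      rw [Finset.mul_sum]
      exact Finset.sum_congr rfl fun i _ => by ring
    rw [this, hf, mul_zero]

/-- **the planted mean of a level depends on the amplitudes only through the sum of the plain
levels** -/
theorem mn_diff2 (hG : GM μ S M0) (k : ℝ) (hx : x ≤ 1) {w w' : Ω} {v f : ι → ℝ} {α : ℝ}
    (h : ∀ w', ∑ i, (v i - α * f i) * S i w' = 0)
    (hf : ∑ i, f i * (S i w' - S i w) = 0) :
    |mn (Vw μ k S x w') (li v) - mn (Vw μ k S x w) (li v)| ≤
      |α| * √((∑ i, f i ^ 2) * ∑ i, (k * (S i w' - S i w)) ^ 2) := by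
  rw [mn_prop hG k x w h, mn_prop hG k x w' h, ← mul_sub, abs_mul]
  refine mul_le_mul_of_nonneg_left ?_ (abs_nonneg _)
  rw [abs_le]
  constructor
  · have hf' : ∑ i, f i * (S i w - S i w') = 0 := by
      have : ∑ i, f i * (S i w - S i w') = -∑ i, f i * (S i w' - S i w) := by
        rw [← Finset.sum_neg_distrib]
        exact Finset.sum_congr rfl fun i _ => by ring
      rw [this, hf, neg_zero]
    have h1 := mn_til hG k hx (w := w') (w' := w) hf'
    have e1 : ∑ i, (k * (S i w - S i w')) ^ 2 = ∑ i, (k * (S i w' - S i w)) ^ 2 :=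
      Finset.sum_congr rfl fun i _ => by ring
    rw [e1] at h1
    linarith
  · exact mn_til hG k hx hf

end gen

/-! ### the ensemble `U` -/

section ens

open Vale.Agent.P146.H281.U

variable {Th : Type} [MeasurableSpace Th] {n : ℕ} {LB LF : Type} [Fintype LB] [DecidableEq LB]
  [Fintype LF] [DecidableEq LF]

/-- the spins -/
noncomputable def spU (Th : Type) (n : ℕ) (j : Fin n) (w : Th × Xs n) : ℝ := sp w.2 j

lemma fdU_inj (n : ℕ) (LB : Type) {LF : Type} (l0 : LF) :
    Function.Injective fun j : Fin n => (fd LB j l0 : Co n LB LF) := by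
  intro i j h
  simpa using h

/-- the direction of the plain levels -/
noncomputable def fU (LB : Type) (P : Finset LF) (cF : LF → ℝ) (τ : Xs n) :
    Co n LB LF → ℝ :=
  Sum.elim (Sum.elim (fun _ => 0) fun e => if e.2 ∈ P then cF e.2 * sp τ e.1 else 0) fun _ => 0

lemma sum_fU (P : Finset LF) (cF : LF → ℝ) (τ : Xs n) (g : Co n LB LF → ℝ) :
    ∑ i, fU LB P cF τ i * g i = ∑ j : Fin n, ∑ l ∈ P, cF l * sp τ j * g (fd LB j l) := by
  rw [Fintype.sum_sum_type, Fintype.sum_sum_type]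
  have e1 : ∑ x : Pair n × LB, fU LB P cF τ (Sum.inl (Sum.inl x)) * g (Sum.inl (Sum.inl x)) = 0 :=
    Finset.sum_eq_zero fun x _ => by
      show (0 : ℝ) * _ = 0
      ring
  have e2 : ∑ x : Fin n, fU LB P cF τ (Sum.inr x) * g (Sum.inr x) = 0 :=
    Finset.sum_eq_zero fun x _ => by
      show (0 : ℝ) * _ = 0
      ring
  rw [e1, e2, zero_add, add_zero, Fintype.sum_prod_type]
  refine Finset.sum_congr rfl fun j _ => ?_
  have e3 : ∀ l : LF, fU LB P cF τ (Sum.inl (Sum.inr (j, l))) * g (Sum.inl (Sum.inr (j, l))) =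
      if l ∈ P then cF l * sp τ j * g (fd LB j l) else 0 := by
    intro l
    show (if l ∈ P then cF l * sp τ j else 0) * g (fd LB j l) = _
    split_ifs <;> ring
  simp only [e3]
  rw [Finset.sum_ite_mem, Finset.univ_inter]

lemma sum_fU_sq (P : Finset LF) (cF : LF → ℝ) (τ : Xs n) :
    ∑ i, fU LB P cF τ i ^ 2 = n * ∑ l ∈ P, cF l ^ 2 := by
  have h1 : ∑ i, fU LB P cF τ i ^ 2 = ∑ i, fU LB P cF τ i * fU LB P cF τ i :=
    Finset.sum_congr rfl fun i _ => by ring
  rw [h1, sum_fU]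
  have h2 : ∀ j : Fin n, ∑ l ∈ P, cF l * sp τ j * fU LB P cF τ (fd LB j l) =
      ∑ l ∈ P, cF l ^ 2 := by
    intro j
    refine Finset.sum_congr rfl fun l hl => ?_
    have h3 : fU LB P cF τ (fd LB j l) = cF l * sp τ j := by
      show (if l ∈ P then cF l * sp τ j else 0) = _
      rw [if_pos hl]
    rw [h3]
    have := sp_mul_self τ j
    linear_combination (cF l ^ 2) * this
  simp only [h2, Finset.sum_const, Finset.card_univ, Fintype.card_fin, nsmul_eq_mul]

section U

variable {ν : Measure Th} {b : ℝ} {cB : LB → ℝ} {cF : LF → ℝ} {a : LF → Th → ℝ}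
  {η x : ℝ} {P : Finset LF} {l0 : LF}

/-- the sum of the energies against the direction of the plain levels -/
lemma fU_SU (hP : ∀ l ∈ P, ∀ θ, a l θ = 1) (τ : Xs n) (w : Th × Xs n) :
    ∑ i, fU LB P cF τ i * SU b cB cF a i w =
      (∑ l ∈ P, cF l ^ 2) * ∑ j : Fin n, sp τ j * sp w.2 j := by
  rw [sum_fU, Finset.mul_sum]
  refine Finset.sum_congr rfl fun j _ => ?_
  rw [Finset.sum_mul]
  refine Finset.sum_congr rfl fun l hl => ?_
  rw [SU_fd, hP l hl]
  ring

lemma vv_SU (hP : ∀ l ∈ P, ∀ θ, a l θ = 1) (hl0 : l0 ∈ P) (w0 w : Th × Xs n) :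
    ∑ i, vv (spU Th n) (fun j => fd LB j l0) w0 i * SU b cB cF a i w =
      cF l0 * ∑ j : Fin n, sp w0.2 j * sp w.2 j := by
  have h1 : ∑ i, vv (spU Th n) (fun j => fd LB j l0) w0 i * SU b cB cF a i w =
      li (vv (spU Th n) (fun j => fd LB j l0) w0) (fun i => SU b cB cF a i w) := rfl
  rw [h1, li_vv]
  unfold Xf spU
  rw [Finset.mul_sum]
  refine Finset.sum_congr rfl fun j _ => ?_
  show sp w0.2 j * SU b cB cF a (fd LB j l0) w = _
  rw [SU_fd, hP l0 hl0]
  ring

/-- the variation of the modulated energies -/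
noncomputable def Dm2 (cF : LF → ℝ) (a : LF → Th → ℝ) (θ θ' : Th) : ℝ :=
  ∑ l, (cF l * (a l θ - a l θ')) ^ 2

lemma sum_dif (τ : Xs n) (θ θ' : Th) :
    ∑ i : Co n LB LF, (1 * (SU b cB cF a i (θ, τ) - SU b cB cF a i (θ', τ))) ^ 2 =
      n * Dm2 cF a θ θ' := by
  rw [Fintype.sum_sum_type, Fintype.sum_sum_type]
  have e1 : ∑ x : Pair n × LB, (1 * (SU b cB cF a (Sum.inl (Sum.inl x)) (θ, τ) -
      SU b cB cF a (Sum.inl (Sum.inl x)) (θ', τ))) ^ 2 = 0 := by
    refine Finset.sum_eq_zero fun x _ => ?_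
    have : SU b cB cF a (Sum.inl (Sum.inl x)) (θ, τ) =
      SU b cB cF a (Sum.inl (Sum.inl x)) (θ', τ) := rfl
    rw [this]
    ring
  have hs : ∀ j, sp τ j * sp τ j = 1 := sp_mul_self τ
  have e2 : ∑ x : Fin n × LF, (1 * (SU b cB cF a (Sum.inl (Sum.inr x)) (θ, τ) -
      SU b cB cF a (Sum.inl (Sum.inr x)) (θ', τ))) ^ 2 =
      n * ∑ l, (cF l * (a l θ - a l θ')) ^ 2 := by
    rw [Fintype.sum_prod_type]
    have : ∀ j : Fin n, ∑ l : LF, (1 * (SU b cB cF a (Sum.inl (Sum.inr (j, l))) (θ, τ) -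
        SU b cB cF a (Sum.inl (Sum.inr (j, l))) (θ', τ))) ^ 2 =
        ∑ l, (cF l * (a l θ - a l θ')) ^ 2 := by
      intro j
      refine Finset.sum_congr rfl fun l _ => ?_
      show (1 * (cF l * a l θ * sp τ j - cF l * a l θ' * sp τ j)) ^ 2 = _
      have := hs j
      linear_combination (cF l * (a l θ - a l θ')) ^ 2 * this
    simp only [this, Finset.sum_const, Finset.card_univ, Fintype.card_fin, nsmul_eq_mul]
  have e3 : ∑ x : Fin n, (1 * (SU b cB cF a (Sum.inr x) (θ, τ) -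
      SU b cB cF a (Sum.inr x : Co n LB LF) (θ', τ))) ^ 2 = 0 := by
    refine Finset.sum_eq_zero fun x _ => ?_
    show (1 * ((0 : ℝ) - 0)) ^ 2 = 0
    ring
  rw [e1, e2, e3, zero_add, add_zero]
  rfl

/-- the planted means in the ensemble `U` -/
theorem mnU (hν : IsFiniteMeasure ν) (hν0 : ν ≠ 0) (hA : AmU a η) (hx : x ≤ 1)
    (hP : ∀ l ∈ P, ∀ θ, a l θ = 1) (hl0 : l0 ∈ P) (hc : cF l0 ≠ 0) {θ0 : Th} {D : ℝ}
    (hD0 : 0 ≤ D) (hD : ∀ θ, Dm2 cF a θ θ0 ≤ D ^ 2) (w : Th × Xs n) :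
    |mn (Vw (muU ν n) 1 (SU b cB cF a) x w) (Xf (spU Th n) (fun j => fd LB j l0) w) -
      mn (Vw (muU ν n) 1 (SU b cB cF a) x (θ0, fun _ => 1))
        (Xf (spU Th n) (fun j => fd LB j l0) (θ0, fun _ => 1))| ≤
      |cF l0| * n * (D / √(∑ l ∈ P, cF l ^ 2)) := by
  have hG := gmU (n := n) (LB := LB) (LF := LF) b cB cF η hν hν0 hA
  set Vp := ∑ l ∈ P, cF l ^ 2 with hVp
  have hV0 : 0 < Vp := by
    have h1 : cF l0 ^ 2 ≤ Vp := Finset.single_le_sum (f := fun l => cF l ^ 2)
      (fun _ _ => sq_nonneg _) hl0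
    have h2 : 0 < cF l0 ^ 2 := by positivity
    linarith
  -- gauge
  have h1 := mn_sym (σ := spU Th n) (e := fun j => fd LB j l0) (symGU b cB cF a hν w.2) 1 x
    ((w.1, fun _ => 1) : Th × Xs n) (fun z => by
      unfold Xf spU
      refine Finset.sum_congr rfl fun j _ => ?_
      rw [ac]
      simp only [eps_fd, Equiv.Perm.coe_one, id_eq]
      have := sp_mul_self w.2 j
      simp only [one_mul]
      rw [← mul_assoc]
      simp only [this]
      unfold sp
      simp)
  have h2 : ((fun w' : Th × Xs n => (w'.1, fun i => w'.2 i * w.2 i)) (w.1, fun _ => 1)) = w := by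
    refine Prod.ext rfl ?_
    funext i
    exact one_mul _
  simp only at h1 h2
  rw [h2] at h1
  rw [h1]
  -- the amplitudes
  have h3 : Xf (spU Th n) (fun j => fd LB j l0) ((w.1, fun _ => 1) : Th × Xs n) =
      li (vv (spU Th n) (fun j => (fd LB j l0 : Co n LB LF)) (θ0, fun _ => 1)) := by
    rw [li_vv]
    rfl
  rw [h3, ← li_vv (spU Th n) (fun j => (fd LB j l0 : Co n LB LF)) (θ0, fun _ => 1)]
  have h4 := mn_diff2 hG 1 hx (w := ((θ0, fun _ => 1) : Th × Xs n)) (w' := (w.1, fun _ => 1))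
    (v := vv (spU Th n) (fun j => (fd LB j l0 : Co n LB LF)) (θ0, fun _ => 1))
    (f := fU LB P cF fun _ => 1) (α := cF l0 / Vp) (fun w' => ?_) ?_
  · refine h4.trans ?_
    rw [sum_fU_sq, sum_dif, ← hVp, abs_div, abs_of_pos hV0]
    have hn : (0 : ℝ) ≤ n := Nat.cast_nonneg n
    have h5 : √((n * Vp) * (n * Dm2 cF a w.1 θ0)) ≤ n * √Vp * D := by
      have h6 : (n * Vp) * (n * Dm2 cF a w.1 θ0) ≤ (n * √Vp * D) ^ 2 := by
        have h7 : (n * √Vp * D) ^ 2 = (n * Vp) * (n * D ^ 2) := by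
          have := Real.sq_sqrt hV0.le
          linear_combination (n ^ 2 * D ^ 2) * this
        rw [h7]
        exact mul_le_mul_of_nonneg_left (mul_le_mul_of_nonneg_left (hD w.1) hn) (by positivity)
      calc _ ≤ √((n * √Vp * D) ^ 2) := Real.sqrt_le_sqrt h6
        _ = _ := Real.sqrt_sq (by positivity)
    calc |cF l0| / Vp * √((n * Vp) * (n * Dm2 cF a w.1 θ0)) ≤
        |cF l0| / Vp * (n * √Vp * D) := mul_le_mul_of_nonneg_left h5 (by positivity)
      _ = |cF l0| * n * (D / √Vp) := by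
          have h8 : 0 < √Vp := Real.sqrt_pos.2 hV0
          have h9 := Real.mul_self_sqrt hV0.le
          rw [div_mul_eq_mul_div, mul_div_assoc', div_eq_div_iff hV0.ne' h8.ne']
          linear_combination (|cF l0| * n * D) * h9
  · have e1 : ∑ i, (vv (spU Th n) (fun j => (fd LB j l0 : Co n LB LF)) (θ0, fun _ => 1) i -
        cF l0 / Vp * fU LB P cF (fun _ => 1) i) * SU b cB cF a i w' =
        ∑ i, vv (spU Th n) (fun j => (fd LB j l0 : Co n LB LF)) (θ0, fun _ => 1) i *
          SU b cB cF a i w' - cF l0 / Vp * ∑ i, fU LB P cF (fun _ => 1) i *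
            SU b cB cF a i w' := by
      rw [Finset.mul_sum, ← Finset.sum_sub_distrib]
      exact Finset.sum_congr rfl fun i _ => by ring
    rw [e1, vv_SU hP hl0, fU_SU hP, ← hVp]
    field_simp
    ring
  · have e1 : ∑ i, fU LB P cF (fun _ => 1) i *
        (SU b cB cF a i ((w.1, fun _ => 1) : Th × Xs n) -
          SU b cB cF a i ((θ0, fun _ => 1) : Th × Xs n)) =
        ∑ i, fU LB P cF (fun _ => 1) i * SU b cB cF a i ((w.1, fun _ => 1) : Th × Xs n) -
        ∑ i, fU LB P cF (fun _ => 1) i * SU b cB cF a i ((θ0, fun _ => 1) : Th × Xs n) := by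
      rw [← Finset.sum_sub_distrib]
      exact Finset.sum_congr rfl fun i _ => by ring
    rw [e1, fU_SU hP, fU_SU hP, sub_self]

/-- the error -/
noncomputable def dltU (n : ℕ) (c0 D Vp : ℝ) : ℝ := 2 * (1 / (|c0| * √n) + D / √Vp)

/-- **The hidden fields in the ensemble `U`**: `P` = levels without amplitude, `l0 ∈ P` hidden,
`D` = a bound of the variation of the modulated energies. -/
theorem hidU (hν : IsFiniteMeasure ν) (hν0 : ν ≠ 0) (hA : AmU a η) (hx : x ≤ 1)
    (hP : ∀ l ∈ P, ∀ θ, a l θ = 1) (hl0 : l0 ∈ P) (hc : cF l0 ≠ 0) {θ0 : Th} {D : ℝ}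
    (hD0 : 0 ≤ D) (hD : ∀ θ, Dm2 cF a θ θ0 ≤ D ^ 2) (hn : 0 < n)
    {K : Finset (Co n LB LF)} (hK : ∀ j, fd LB j l0 ∉ K)
    (f : ((Th × Xs n) × (Th × Xs n)) × (Co n LB LF → ℝ) → ℝ) (hf : Bm f) (hf1 : ∀ q, |f q| ≤ 1)
    (hfd : ∀ p, H646.Dep K fun z => f (p, z)) :
    |E2 (muU ν n) 1 (SU b cB cF a) x (fun q => f q *
        ∑ j : Fin n, (sp q.1.1.2 j - sp q.1.2.2 j) / (Fintype.card (Fin n) : ℝ) *
          avm (muU ν n) 1 (SU b cB cF a) (fun w => sp w.2 j) q.2)| ≤
      dltU n (cF l0) D (∑ l ∈ P, cF l ^ 2) *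
        ∫ z, Zxm (muU ν n) 1 (SU b cB cF a) x z ∂(gI (Co n LB LF)) := by
  have hG := gmU (n := n) (LB := LB) (LF := LF) b cB cF η hν hν0 hA
  have : Nonempty (Fin n) := ⟨⟨0, hn⟩⟩
  have hms : ∀ j : Fin n, Measurable (spU Th n j) := fun j => by
    have := dmx n
    exact (Measurable.of_discrete (f := fun σ : Xs n => sp σ j)).comp measurable_snd
  have h := hid hG 1 hx (σ := spU Th n) (e := fun j => fd LB j l0) (K := K) (s0 := cF l0)
    (by rwa [one_mul]) (fdU_inj n LB l0) hK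
    (fun j w => by rw [SU_fd, hP l0 hl0, mul_one]; rfl) (fun j w => sp_mul_self w.2 j)
    hms (mnU hν hν0 hA hx hP hl0 hc hD0 hD) f hf hf1 hfd
  refine h.trans (le_of_eq ?_)
  congr 1
  have hn0 : (0 : ℝ) < n := by exact_mod_cast hn
  have hc0 : 0 < |cF l0| := abs_pos.2 hc
  have hr : 0 < √(n : ℝ) := Real.sqrt_pos.2 hn0
  have hr2 : √(n : ℝ) * √n = n := Real.mul_self_sqrt hn0.le
  unfold dltU
  rw [Fintype.card_fin, one_mul]
  have e1 : 1 / (|cF l0| * √(n : ℝ)) = √(n : ℝ) / (|cF l0| * n) := by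
    rw [div_eq_div_iff (by positivity) (by positivity)]
    linear_combination (-|cF l0|) * hr2
  rw [e1]
  generalize D / √(∑ l ∈ P, cF l ^ 2) = T
  field_simp

/-- the bound of the variation of the modulated energies -/
lemma Dm2_le (hA : AmU a η) (hP : ∀ l ∈ P, ∀ θ, a l θ = 1) (θ θ' : Th) :
    Dm2 cF a θ θ' ≤ (2 * η * √(∑ l ∈ Pᶜ, cF l ^ 2)) ^ 2 := by
  have h0 : 0 ≤ ∑ l ∈ Pᶜ, cF l ^ 2 := Finset.sum_nonneg fun _ _ => sq_nonneg _
  rw [mul_pow, Real.sq_sqrt h0]
  have hη := hA.nn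
  have hb : ∀ u v : ℝ, |u - 1| ≤ η → |v - 1| ≤ η → (u - v) ^ 2 ≤ (2 * η) ^ 2 := by
    intro u v h1 h2
    have h3 : |u - v| ≤ 2 * η := by
      have : u - v = (u - 1) - (v - 1) := by ring
      rw [this]
      exact (abs_sub _ _).trans (by linarith)
    rw [← sq_abs (u - v)]
    exact pow_le_pow_left₀ (abs_nonneg _) h3 2
  unfold Dm2
  rw [← Finset.sum_add_sum_compl P, Finset.mul_sum]
  have h1 : ∑ l ∈ P, (cF l * (a l θ - a l θ')) ^ 2 = 0 := by
    refine Finset.sum_eq_zero fun l hl => ?_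
    rw [hP l hl, hP l hl]
    ring
  rw [h1, zero_add]
  refine Finset.sum_le_sum fun l _ => ?_
  rw [mul_pow, mul_comm]
  exact mul_le_mul_of_nonneg_right (hb _ _ (hA.bd l θ) (hA.bd l θ')) (sq_nonneg _)

/-- **the second term of the squared magnetisation of a hidden site, ensemble `U`** -/
theorem ex_Ma_U (hν : IsFiniteMeasure ν) (hν0 : ν ≠ 0) (hA : AmU a η) (hx : x ≤ 1)
    (hP : ∀ l ∈ P, ∀ θ, a l θ = 1) (hl0 : l0 ∈ P) (hc : cF l0 ≠ 0)
    {K : Finset (Co n LB LF)} (hK : ∀ j, fd LB j l0 ∉ K) {Hs : Finset (Fin n)}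
    (h : KSites (muU ν n) (SU b cB cF a) (fun j w => sp w.2 j) K Hs) {i0 : Fin n}
    (hi : i0 ∈ Hs) :
    ex (g1 _) (Zxm (muU ν n) 1 (SU b cB cF a) x)
      (Ma (muU ν n) 1 (SU b cB cF a) x K fun w => sp w.2 i0) ≤
      1 / √(Hs.card : ℝ) + (1 / (|cF l0| * √n) +
        2 * η * √(∑ l ∈ Pᶜ, cF l ^ 2) / √(∑ l ∈ P, cF l ^ 2)) := by
  have hG := gmU (n := n) (LB := LB) (LF := LF) b cB cF η hν hν0 hA
  have : Nonempty Th := by
    by_contra h1
    rw [not_nonempty_iff] at h1
    exact hν0 (Measure.eq_zero_of_isEmpty ν)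
  obtain ⟨θ0⟩ := this
  have hη := hA.nn
  have h2 := ex_Ma_le hG 1 x h hi (δ := dltU n (cF l0)
    (2 * η * √(∑ l ∈ Pᶜ, cF l ^ 2)) (∑ l ∈ P, cF l ^ 2))
    (hidU hν hν0 hA hx hP hl0 hc (θ0 := θ0) (by positivity)
      (fun θ => Dm2_le hA hP θ θ0) i0.pos hK)
  refine h2.trans (le_of_eq ?_)
  unfold dltU
  ring

end U

end ens

end Vale.Agent.P146.H292
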