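import Vale.Agent.P146.H425.Gauss
import Vale.Agent.P146.H863.PLG

/-!
# P146: linear functions under a law with the density `exp (-V)`, `V` convex, with respect to the
standard Gaussian law: their variance is at most the Gaussian one, and a linear tilt moves their
means by at most the product of the lengths.
-/

open MeasureTheory ProbabilityTheory Set

namespace Vale.Agent.P146.H292

open Vale.Agent.P157.Lv Vale.Agent.P146.H425

variable {κ : Type} [Fintype κ]

/-- the linear function `v` -/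
def li (v u : κ → ℝ) : ℝ := ∑ i, v i * u i

lemma li_add (v u w : κ → ℝ) : li v (u + w) = li v u + li v w := by
  unfold li
  rw [← Finset.sum_add_distrib]
  exact Finset.sum_congr rfl fun i _ => by simp only [Pi.add_apply]; ring

lemma lip_li (v : κ → ℝ) : Lip (li v) := by
  unfold li
  exact Lip.sum _ fun i _ => (Lip.coord i).const_mul (v i)

lemma eg_li (v : κ → ℝ) : EG (li v) := (lip_li v).eg

/-- Cameron-Martin -/
lemma shift_li (a : κ → ℝ) (F : (κ → ℝ) → ℝ) :
    ∫ g, Real.exp (li a g) * F g ∂(gI κ) =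
      Real.exp ((∑ i, a i ^ 2) / 2) * ∫ g, F (g + a) ∂(gI κ) := by
  have h := integral_shift (ι := κ) (-a) F
  have e2 : ∀ J : κ → ℝ, Real.exp (-(∑ i, (-a) i * J i) - (∑ i, (-a) i ^ 2) / 2) *
      F J = Real.exp (-((∑ i, a i ^ 2) / 2)) * (Real.exp (li a J) * F J) := by
    intro J
    rw [← mul_assoc, ← Real.exp_add]
    congr 2
    have e3 : ∑ i, (-a) i * J i = -∑ i, a i * J i := by
      rw [← Finset.sum_neg_distrib]
      exact Finset.sum_congr rfl fun i _ => by simp
    have e4 : ∑ i, (-a) i ^ 2 = ∑ i, a i ^ 2 := Finset.sum_congr rfl fun i _ => by simp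
    unfold li
    rw [e3, e4]
    ring
  simp only [sub_neg_eq_add, e2] at h
  rw [integral_const_mul] at h
  rw [h, ← mul_assoc, ← Real.exp_add]
  simp

section

variable {V : (κ → ℝ) → ℝ}

/-- the normalisation at the tilts `t`, `r` of the linear functions `v`, `p` -/
noncomputable def Nt (V : (κ → ℝ) → ℝ) (v p : κ → ℝ) (t r : ℝ) : ℝ :=
  ∫ u, Real.exp (t * li v u + r * li p u - V u) ∂(gI κ)

lemma eg_ex (hL : Lip V) (v p : κ → ℝ) (t r : ℝ) :
    EG fun u => Real.exp (t * li v u + r * li p u - V u) := by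
  have h1 := ((((lip_li v).const_mul t).add ((lip_li p).const_mul r)).add
    (hL.const_mul (-1))).exp_eg 1
  have e : (fun u => Real.exp (1 * (t * li v u + r * li p u + -1 * V u))) =
      fun u => Real.exp (t * li v u + r * li p u - V u) := by
    funext u
    congr 1
    ring
  rwa [e] at h1

lemma Nt_pos (hL : Lip V) (v p : κ → ℝ) (t r : ℝ) : 0 < Nt V v p t r :=
  integral_exp_pos (eg_ex hL v p t r).integrable

lemma Nt_eq (v p : κ → ℝ) (t r : ℝ) : Nt V v p t r =
    Real.exp ((∑ i, (t * v i + r * p i) ^ 2) / 2) *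
      ∫ u, Real.exp (-V (u + (t • v + r • p))) ∂(gI κ) := by
  have h := shift_li (t • v + r • p) (fun u => Real.exp (-V u))
  have e1 : ∀ u, Real.exp (li (t • v + r • p) u) * Real.exp (-V u) =
      Real.exp (t * li v u + r * li p u - V u) := by
    intro u
    rw [← Real.exp_add]
    congr 1
    have : li (t • v + r • p) u = t * li v u + r * li p u := by
      unfold li
      rw [Finset.mul_sum, Finset.mul_sum, ← Finset.sum_add_distrib]
      exact Finset.sum_congr rfl fun i _ => by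
        simp only [Pi.add_apply, Pi.smul_apply, smul_eq_mul]; ring
    rw [this]
    ring
  simp only [e1] at h
  unfold Nt
  rw [h]
  simp only [Pi.add_apply, Pi.smul_apply, smul_eq_mul]

/-- Prekopa: the logarithm of the normalisation minus the Gaussian one is concave. -/
lemma conc (hV : ConvexOn ℝ univ V) (hL : Lip V) (v p : κ → ℝ) :
    ConcaveOn ℝ univ fun q : ℝ × ℝ => Real.log (Nt V v p q.1 q.2) -
      (∑ i, (q.1 * v i + q.2 * p i) ^ 2) / 2 := by
  have hm : Measurable V := hL.measurable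
  have h := H863.PL.gauss (κ := κ) (E := ℝ × ℝ)
    (fun q u => -V (u + (q.1 • v + q.2 • p))) ?_ ?_ ?_
  · refine h.congr fun q _ => ?_
    simp only
    rw [Nt_eq, Real.log_mul (Real.exp_pos _).ne', Real.log_exp]
    · ring
    · have h1 := Nt_pos hL v p q.1 q.2
      rw [Nt_eq] at h1
      exact (pos_of_mul_pos_right h1 (Real.exp_pos _).le).ne'
  · let L : ((ℝ × ℝ) × (κ → ℝ)) →ₗ[ℝ] (κ → ℝ) :=
      { toFun := fun x => x.2 + (x.1.1 • v + x.1.2 • p)
        map_add' := fun x y => by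
          simp only [Prod.fst_add, Prod.snd_add, add_smul]
          abel
        map_smul' := fun c x => by
          simp only [Prod.smul_fst, Prod.smul_snd, smul_eq_mul, RingHom.id_apply, smul_add,
            mul_smul] }
    exact (hV.comp_linearMap L).neg
  · intro q
    exact (hm.comp (measurable_id.add measurable_const)).neg
  · intro q
    obtain ⟨K, hK, hl⟩ := hL
    refine ⟨|V 0| + K * ‖q.1 • v + q.2 • p‖, K, fun g => ?_⟩
    have h1 := hl (g + (q.1 • v + q.2 • p)) 0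
    rw [sub_zero] at h1
    have h2 : ‖g + (q.1 • v + q.2 • p)‖ ≤ (∑ i, |g i|) + ‖q.1 • v + q.2 • p‖ := by
      refine (norm_add_le _ _).trans (add_le_add_left ?_ _)
      refine (pi_norm_le_iff_of_nonneg (Finset.sum_nonneg fun i _ => abs_nonneg _)).2
        fun i => ?_
      rw [Real.norm_eq_abs]
      exact Finset.single_le_sum (f := fun i => |g i|) (fun i _ => abs_nonneg _)
        (Finset.mem_univ i)
    have h3 := mul_le_mul_of_nonneg_left h2 hK
    have h4 := abs_sub_abs_le_abs_sub (V (g + (q.1 • v + q.2 • p))) (V 0)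
    have h5 := neg_abs_le (V (g + (q.1 • v + q.2 • p)))
    have h6 := abs_le.1 h1
    have h7 := neg_abs_le (V 0)
    linarith

/-- the mean of a function -/
noncomputable def mn (V : (κ → ℝ) → ℝ) (f : (κ → ℝ) → ℝ) : ℝ :=
  (∫ u, Real.exp (-V u) * f u ∂(gI κ)) / ∫ u, Real.exp (-V u) ∂(gI κ)

lemma eg_mV (hL : Lip V) : EG fun u => Real.exp (-V u) := by
  have h := hL.exp_eg (-1)
  simpa using h

lemma mV_pos (hL : Lip V) : 0 < ∫ u, Real.exp (-V u) ∂(gI κ) :=
  integral_exp_pos (eg_mV hL).integrable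

lemma mn_cen (hL : Lip V) {f : (κ → ℝ) → ℝ} (hf : EG f) :
    ∫ u, Real.exp (-V u) * (f u - mn V f) ∂(gI κ) = 0 := by
  have h1 := mV_pos hL
  have e : (fun u => Real.exp (-V u) * (f u - mn V f)) =
      fun u => Real.exp (-V u) * f u - Real.exp (-V u) * mn V f := by
    funext u
    ring
  rw [e, integral_sub ((eg_mV hL).mul hf).integrable
    ((eg_mV hL).mul (EG.const _)).integrable, integral_mul_const]
  unfold mn
  field_simp
  ring

lemma exp_cub (s : ℝ) : 1 + s + s ^ 2 / 2 + s ^ 3 / 6 ≤ Real.exp s := by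
  -- the derivative of the difference is `exp - (1 + s + s^2/2)`, of the sign of `s`
  have d2 : ∀ x : ℝ, HasDerivAt (fun x : ℝ => Real.exp x - (1 + x + x ^ 2 / 2))
      (Real.exp x - (1 + x)) x := by
    intro x
    have h := (Real.hasDerivAt_exp x).sub
      (((hasDerivAt_id x).const_add 1).add (((hasDerivAt_pow 2 x)).div_const 2))
    refine h.congr_deriv ?_
    simp
  have d3 : ∀ x : ℝ, HasDerivAt (fun x : ℝ => Real.exp x - (1 + x + x ^ 2 / 2 + x ^ 3 / 6))
      (Real.exp x - (1 + x + x ^ 2 / 2)) x := by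
    intro x
    have h := (Real.hasDerivAt_exp x).sub
      ((((hasDerivAt_id x).const_add 1).add (((hasDerivAt_pow 2 x)).div_const 2)).add
        ((hasDerivAt_pow 3 x).div_const 6))
    refine h.congr_deriv ?_
    simp
    ring
  have m2 : Monotone fun x : ℝ => Real.exp x - (1 + x + x ^ 2 / 2) := by
    refine monotone_of_deriv_nonneg (fun x => (d2 x).differentiableAt) fun x => ?_
    rw [(d2 x).deriv]
    linarith [Real.add_one_le_exp x]
  have h0 : (fun x : ℝ => Real.exp x - (1 + x + x ^ 2 / 2)) 0 = 0 := by simp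
  rcases le_total 0 s with hs | hs
  · have m3 : MonotoneOn (fun x : ℝ => Real.exp x - (1 + x + x ^ 2 / 2 + x ^ 3 / 6)) (Ici 0) := by
      refine monotoneOn_of_deriv_nonneg (convex_Ici 0)
        (fun x _ => (d3 x).continuousAt.continuousWithinAt)
        (fun x _ => (d3 x).differentiableAt.differentiableWithinAt) fun x hx => ?_
      rw [(d3 x).deriv]
      rw [interior_Ici] at hx
      have := m2 (le_of_lt (mem_Ioi.1 hx))
      rw [h0] at this
      exact this
    have := m3 (mem_Ici.2 le_rfl) (mem_Ici.2 hs) hs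
    simp at this
    linarith
  · have m3 : AntitoneOn (fun x : ℝ => Real.exp x - (1 + x + x ^ 2 / 2 + x ^ 3 / 6)) (Iic 0) := by
      refine antitoneOn_of_deriv_nonpos (convex_Iic 0)
        (fun x _ => (d3 x).continuousAt.continuousWithinAt)
        (fun x _ => (d3 x).differentiableAt.differentiableWithinAt) fun x hx => ?_
      rw [(d3 x).deriv]
      rw [interior_Iic] at hx
      have := m2 (le_of_lt (mem_Iio.1 hx))
      rw [h0] at this
      exact this
    have := m3 (mem_Iic.2 hs) (mem_Iic.2 le_rfl) hs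
    simp at this
    linarith

lemma lim_le {A B C : ℝ} (h : ∀ t : ℝ, 0 < t → t ≤ 1 → A ≤ B + t * C) : A ≤ B := by
  by_contra hc
  push Not at hc
  rcases le_or_gt C 0 with hC | hC
  · have := h 1 one_pos le_rfl
    linarith
  · have h1 := h (min 1 ((A - B) / (2 * C))) (lt_min one_pos (by
      have : 0 < A - B := by linarith
      positivity)) (min_le_left _ _)
    have h2 : min 1 ((A - B) / (2 * C)) * C ≤ (A - B) / (2 * C) * C :=
      mul_le_mul_of_nonneg_right (min_le_right _ _) hC.le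
    have h3 : (A - B) / (2 * C) * C = (A - B) / 2 := by field_simp
    linarith

lemma num_prod {a b P Q : ℝ} (ha : 0 ≤ a) (hP : 0 < P) (hQ : 0 < Q) (h1 : a + b ≤ P)
    (h2 : a + -b ≤ Q) : a ^ 2 - b ^ 2 ≤ P * Q := by
  rcases le_total 0 b with h | h
  · by_cases h3 : 0 ≤ a + -b
    · have := mul_le_mul h1 h2 h3 hP.le
      nlinarith
    · push Not at h3
      nlinarith [mul_pos hP hQ]
  · by_cases h3 : 0 ≤ a + b
    · have := mul_le_mul h1 h2 (by linarith) hP.le
      nlinarith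
    · push Not at h3
      nlinarith [mul_pos hP hQ]

lemma num_key {N0 M2 M3 A t P Q : ℝ} (hN : 0 < N0) (hM : 0 ≤ M2) (hA : 0 ≤ A) (ht : 0 < t)
    (ht1 : t ≤ 1) (htA : t ^ 2 * A ≤ 1) (hP : 0 < P) (hQ : 0 < Q)
    (h1 : N0 + t ^ 2 / 2 * M2 + t ^ 3 / 6 * M3 ≤ P)
    (h2 : N0 + t ^ 2 / 2 * M2 + -(t ^ 3 / 6 * M3) ≤ Q)
    (h3 : P * Q ≤ Real.exp (t ^ 2 * A) * N0 ^ 2) :
    N0 * M2 ≤ N0 ^ 2 * A + t * (N0 ^ 2 * A ^ 2 + M3 ^ 2 / 36) := by
  have a4 := num_prod (by positivity) hP hQ h1 h2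
  have a5 : Real.exp (t ^ 2 * A) ≤ 1 + t ^ 2 * A + (t ^ 2 * A) ^ 2 := by
    have hx : 0 ≤ t ^ 2 * A := by positivity
    have := Real.abs_exp_sub_one_sub_id_le (x := t ^ 2 * A) (by rw [abs_of_nonneg hx]; exact htA)
    have := (abs_le.1 this).2
    linarith
  have b1 := a4.trans (h3.trans (mul_le_mul_of_nonneg_right a5 (sq_nonneg N0)))
  have b2 : (N0 + t ^ 2 / 2 * M2) ^ 2 = N0 ^ 2 + t ^ 2 * (N0 * M2) + (t ^ 2 / 2 * M2) ^ 2 := by
    ring
  have b3 : (t ^ 3 / 6 * M3) ^ 2 = t ^ 6 * (M3 ^ 2 / 36) := by ring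
  have b4 : (1 + t ^ 2 * A + (t ^ 2 * A) ^ 2) * N0 ^ 2 =
      N0 ^ 2 + t ^ 2 * (N0 ^ 2 * A) + t ^ 2 * (t ^ 2 * (N0 ^ 2 * A ^ 2)) := by ring
  have b5 : t ^ 6 * (M3 ^ 2 / 36) = t ^ 2 * (t ^ 4 * (M3 ^ 2 / 36)) := by ring
  rw [b2, b3, b4, b5] at b1
  have a7 : t ^ 2 * (N0 * M2) ≤ t ^ 2 * (N0 ^ 2 * A + t ^ 2 * (N0 ^ 2 * A ^ 2) +
      t ^ 4 * (M3 ^ 2 / 36)) := by
    have := sq_nonneg (t ^ 2 / 2 * M2)
    have e : t ^ 2 * (N0 ^ 2 * A + t ^ 2 * (N0 ^ 2 * A ^ 2) + t ^ 4 * (M3 ^ 2 / 36)) =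
        t ^ 2 * (N0 ^ 2 * A) + t ^ 2 * (t ^ 2 * (N0 ^ 2 * A ^ 2)) +
          t ^ 2 * (t ^ 4 * (M3 ^ 2 / 36)) := by ring
    rw [e]
    linarith
  have a8 := le_of_mul_le_mul_left a7 (by positivity)
  have t2 : t ^ 2 ≤ t := pow_le_of_le_one ht.le ht1 (by norm_num)
  have t4 : t ^ 4 ≤ t := pow_le_of_le_one ht.le ht1 (by norm_num)
  have c1 : t ^ 2 * (N0 ^ 2 * A ^ 2) ≤ t * (N0 ^ 2 * A ^ 2) :=
    mul_le_mul_of_nonneg_right t2 (by positivity)
  have c2 : t ^ 4 * (M3 ^ 2 / 36) ≤ t * (M3 ^ 2 / 36) :=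
    mul_le_mul_of_nonneg_right t4 (by positivity)
  have e : t * (N0 ^ 2 * A ^ 2 + M3 ^ 2 / 36) = t * (N0 ^ 2 * A ^ 2) + t * (M3 ^ 2 / 36) := by ring
  rw [e]
  linarith

/-- **the variance of a linear function** -/
theorem var_li (hV : ConvexOn ℝ univ V) (hL : Lip V) (v : κ → ℝ) :
    ∫ u, Real.exp (-V u) * (li v u - mn V (li v)) ^ 2 ∂(gI κ) ≤
      (∑ i, v i ^ 2) * ∫ u, Real.exp (-V u) ∂(gI κ) := by
  set m := mn V (li v) with hm
  set N0 := ∫ u, Real.exp (-V u) ∂(gI κ) with hN0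
  have hN : 0 < N0 := mV_pos hL
  have egY : EG fun u => li v u - m := (eg_li v).sub (EG.const m)
  have egE := eg_mV hL
  set M2 := ∫ u, Real.exp (-V u) * (li v u - m) ^ 2 ∂(gI κ) with hM2
  set M3 := ∫ u, Real.exp (-V u) * (li v u - m) ^ 3 ∂(gI κ) with hM3
  have i1 := (egE.mul egY).integrable
  have i2 := (egE.mul (egY.pow 2)).integrable
  have i3 := (egE.mul (egY.pow 3)).integrable
  have hM20 : 0 ≤ M2 := integral_nonneg fun u => by positivity
  -- lower bound of the normalisations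
  have low : ∀ t : ℝ, N0 + t ^ 2 / 2 * M2 + t ^ 3 / 6 * M3 ≤ Real.exp (-(t * m)) * Nt V v 0 t 0 := by
    intro t
    have e1 : N0 + t ^ 2 / 2 * M2 + t ^ 3 / 6 * M3 =
        ∫ u, Real.exp (-V u) * (1 + t * (li v u - m) + (t * (li v u - m)) ^ 2 / 2 +
          (t * (li v u - m)) ^ 3 / 6) ∂(gI κ) := by
      have e2 : (fun u => Real.exp (-V u) * (1 + t * (li v u - m) + (t * (li v u - m)) ^ 2 / 2 +
          (t * (li v u - m)) ^ 3 / 6)) = fun u => ((Real.exp (-V u) +
            t * (Real.exp (-V u) * (li v u - m))) +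
              t ^ 2 / 2 * (Real.exp (-V u) * (li v u - m) ^ 2)) +
                t ^ 3 / 6 * (Real.exp (-V u) * (li v u - m) ^ 3) := by
        funext u
        ring
      have j1 : Integrable (fun u => Real.exp (-V u) + t * (Real.exp (-V u) * (li v u - m)))
          (gI κ) := egE.integrable.add (i1.const_mul t)
      have j2 : Integrable (fun u => Real.exp (-V u) + t * (Real.exp (-V u) * (li v u - m)) +
          t ^ 2 / 2 * (Real.exp (-V u) * (li v u - m) ^ 2)) (gI κ) := j1.add (i2.const_mul _)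
      rw [e2, integral_add j2 (i3.const_mul _), integral_add j1 (i2.const_mul _),
        integral_add egE.integrable (i1.const_mul t), integral_const_mul, integral_const_mul,
        integral_const_mul, mn_cen hL (eg_li v)]
      ring
    rw [e1]
    unfold Nt
    rw [← integral_const_mul]
    have eg1 : EG fun u => Real.exp (-V u) * (1 + t * (li v u - m) + (t * (li v u - m)) ^ 2 / 2 +
          (t * (li v u - m)) ^ 3 / 6) := by
      have h1 : EG fun u => t * (li v u - m) := egY.const_mul t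
      have h2 : EG fun u => (t * (li v u - m)) ^ 2 / 2 := by
        simpa [div_eq_inv_mul] using (h1.pow 2).const_mul 2⁻¹
      have h3 : EG fun u => (t * (li v u - m)) ^ 3 / 6 := by
        simpa [div_eq_inv_mul] using (h1.pow 3).const_mul 6⁻¹
      exact egE.mul ((((EG.const 1).add h1).add h2).add h3)
    refine integral_mono eg1.integrable ((eg_ex hL v 0 t 0).integrable.const_mul _) fun u => ?_
    have h1 := mul_le_mul_of_nonneg_left (exp_cub (t * (li v u - m))) (Real.exp_pos (-V u)).le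
    refine h1.trans (le_of_eq ?_)
    show _ = Real.exp (-(t * m)) * Real.exp (t * li v u + 0 * li 0 u - V u)
    rw [← Real.exp_add, ← Real.exp_add]
    congr 1
    ring
  -- upper bound
  have hcv := conc hV hL v 0
  have up : ∀ t : ℝ, Nt V v 0 t 0 * Nt V v 0 (-t) 0 ≤
      Real.exp (t ^ 2 * ∑ i, v i ^ 2) * N0 ^ 2 := by
    intro t
    have h1 := hcv.2 (mem_univ (t, (0 : ℝ))) (mem_univ (-t, (0 : ℝ)))
      (by norm_num : (0 : ℝ) ≤ 1 / 2) (by norm_num : (0 : ℝ) ≤ 1 / 2) (by norm_num)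
    simp only [smul_eq_mul, Prod.smul_mk, Prod.mk_add_mk, mul_zero, add_zero] at h1
    have e0 : 1 / 2 * t + 1 / 2 * -t = (0 : ℝ) := by ring
    rw [e0] at h1
    have e1 : Nt V v 0 0 0 = N0 := by
      unfold Nt
      simp [hN0]
    rw [e1] at h1
    have e2 : ∑ i, (t * v i + 0 * (0 : κ → ℝ) i) ^ 2 = t ^ 2 * ∑ i, v i ^ 2 := by
      rw [Finset.mul_sum]
      exact Finset.sum_congr rfl fun i _ => by simp [mul_pow]
    have e3 : ∑ i, (-t * v i + 0 * (0 : κ → ℝ) i) ^ 2 = t ^ 2 * ∑ i, v i ^ 2 := by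
      rw [Finset.mul_sum]
      exact Finset.sum_congr rfl fun i _ => by simp [mul_pow]
    have e4 : ∑ i, ((0 : ℝ) * v i + 0 * (0 : κ → ℝ) i) ^ 2 = 0 := by simp
    rw [e2, e3, e4] at h1
    have p1 := Nt_pos hL v 0 t 0
    have p2 := Nt_pos hL v 0 (-t) 0
    rw [← Real.log_le_log_iff (mul_pos p1 p2) (by positivity), Real.log_mul p1.ne' p2.ne',
      Real.log_mul (Real.exp_pos _).ne' (by positivity), Real.log_exp, Real.log_pow]
    push_cast
    linarith
  set A := ∑ i, v i ^ 2 with hA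
  have hA0 : 0 ≤ A := Finset.sum_nonneg fun i _ => sq_nonneg _
  -- comparison at a small tilt
  have key : ∀ t : ℝ, 0 < t → t ≤ 1 → t ^ 2 * A ≤ 1 →
      N0 * M2 ≤ N0 ^ 2 * A + t * (N0 ^ 2 * A ^ 2 + M3 ^ 2 / 36) := by
    intro t ht ht1 htA
    have a2 := low (-t)
    have e1 : (-t) ^ 2 / 2 * M2 = t ^ 2 / 2 * M2 := by ring
    have e2 : (-t) ^ 3 / 6 * M3 = -(t ^ 3 / 6 * M3) := by ring
    rw [e1, e2] at a2
    have p1 := mul_pos (Real.exp_pos (-(t * m))) (Nt_pos hL v 0 t 0)
    have p2 := mul_pos (Real.exp_pos (-(-t * m))) (Nt_pos hL v 0 (-t) 0)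
    have e3 : (Real.exp (-(t * m)) * Nt V v 0 t 0) * (Real.exp (-(-t * m)) * Nt V v 0 (-t) 0) =
        Nt V v 0 t 0 * Nt V v 0 (-t) 0 := by
      have : Real.exp (-(t * m)) * Real.exp (-(-t * m)) = 1 := by
        rw [← Real.exp_add]
        simp
      calc _ = (Real.exp (-(t * m)) * Real.exp (-(-t * m))) *
            (Nt V v 0 t 0 * Nt V v 0 (-t) 0) := by ring
        _ = _ := by rw [this, one_mul]
    exact num_key hN hM20 hA0 ht ht1 htA p1 p2 (low t) a2 (by rw [e3]; exact up t)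
  have fin : N0 * M2 ≤ N0 ^ 2 * A := by
    -- rescale `t` so that `t ^ 2 * A ≤ 1`
    obtain ⟨c, hc0, hc1, hcA⟩ : ∃ c : ℝ, 0 < c ∧ c ≤ 1 ∧ c ^ 2 * A ≤ 1 := by
      refine ⟨1 / (1 + A), by positivity, ?_, ?_⟩
      · rw [div_le_one (by positivity)]
        linarith
      · rw [div_pow, one_pow, div_mul_eq_mul_div, one_mul, div_le_one (by positivity)]
        nlinarith [sq_nonneg A]
    refine lim_le (C := c * (N0 ^ 2 * A ^ 2 + M3 ^ 2 / 36)) fun t ht ht1 => ?_
    have h1 := key (t * c) (mul_pos ht hc0) (mul_le_one₀ ht1 hc0.le hc1) (by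
      have : (t * c) ^ 2 * A = t ^ 2 * (c ^ 2 * A) := by ring
      rw [this]
      exact mul_le_one₀ (pow_le_one₀ ht.le ht1) (by positivity) hcA)
    linarith
  have : N0 * M2 ≤ N0 * (A * N0) := by linarith [fin]
  exact le_of_mul_le_mul_left this hN

lemma Nt_zero (v p : κ → ℝ) : Nt V v p 0 0 = ∫ u, Real.exp (-V u) ∂(gI κ) := by
  unfold Nt
  simp

/-- Jensen: the logarithm of the normalisation is above its tangent. -/
lemma jen (hL : Lip V) (v p : κ → ℝ) (t : ℝ) :
    Real.log (∫ u, Real.exp (-V u) ∂(gI κ)) + t * mn V (li v) ≤ Real.log (Nt V v p t 0) := by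
  have h0 := mV_pos hL
  have h1 := Nt_pos hL v p t 0
  set m := mn V (li v) with hm
  have h2 : Real.exp (t * m) * ∫ u, Real.exp (-V u) ∂(gI κ) ≤ Nt V v p t 0 := by
    have e1 : Real.exp (t * m) * ∫ u, Real.exp (-V u) ∂(gI κ) =
        ∫ u, (Real.exp (t * m) * Real.exp (-V u) +
          Real.exp (t * m) * t * (Real.exp (-V u) * (li v u - m))) ∂(gI κ) := by
      have i1 : Integrable (fun u => Real.exp (-V u) * (li v u - m)) (gI κ) :=
        ((eg_mV hL).mul ((eg_li v).sub (EG.const m))).integrable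
      rw [integral_add ((eg_mV hL).integrable.const_mul _) (i1.const_mul _),
        integral_const_mul, integral_const_mul, mn_cen hL (eg_li v)]
      ring
    rw [e1]
    unfold Nt
    have eg1 : EG fun u => Real.exp (t * m) * Real.exp (-V u) +
        Real.exp (t * m) * t * (Real.exp (-V u) * (li v u - m)) :=
      ((eg_mV hL).const_mul _).add (((eg_mV hL).mul ((eg_li v).sub (EG.const m))).const_mul _)
    refine integral_mono eg1.integrable (eg_ex hL v p t 0).integrable fun u => ?_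
    have a1 := Real.add_one_le_exp (t * (li v u - m))
    have a2 := mul_le_mul_of_nonneg_left a1
      (mul_pos (Real.exp_pos (t * m)) (Real.exp_pos (-V u))).le
    show _ ≤ Real.exp (t * li v u + 0 * li p u - V u)
    refine le_trans (le_of_eq ?_) (a2.trans (le_of_eq ?_))
    · ring
    · rw [← Real.exp_add, ← Real.exp_add]
      congr 1
      ring
  have h3 := Real.log_le_log (mul_pos (Real.exp_pos _) h0) h2
  rw [Real.log_mul (Real.exp_pos _).ne' h0.ne', Real.log_exp] at h3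
  linarith

/-- half of a tilt -/
lemma half (hL : Lip V) (v p : κ → ℝ) : 2 * Real.log (Nt V v p 0 (1 / 2)) ≤
    Real.log (Nt V v p 0 0) + Real.log (Nt V v p 0 1) := by
  have h0 := Nt_pos hL v p 0 0
  have h1 := Nt_pos hL v p 0 1
  have h2 := Nt_pos hL v p 0 (1 / 2)
  obtain ⟨l, hl⟩ : ∃ l : ℝ, l = √(Nt V v p 0 1 / Nt V v p 0 0) := ⟨_, rfl⟩
  have hl0 : 0 < l := by rw [hl]; exact Real.sqrt_pos.2 (by positivity)
  have hl2 : l ^ 2 = Nt V v p 0 1 / Nt V v p 0 0 := by rw [hl]; exact Real.sq_sqrt (by positivity)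
  have h3 : 2 * Nt V v p 0 (1 / 2) ≤ l * Nt V v p 0 0 + l⁻¹ * Nt V v p 0 1 := by
    unfold Nt
    rw [← integral_const_mul, ← integral_const_mul, ← integral_const_mul,
      ← integral_add ((eg_ex hL v p 0 0).integrable.const_mul _)
        ((eg_ex hL v p 0 1).integrable.const_mul _)]
    refine integral_mono ((eg_ex hL v p 0 (1 / 2)).integrable.const_mul _)
      (((eg_ex hL v p 0 0).integrable.const_mul _).add
        ((eg_ex hL v p 0 1).integrable.const_mul _)) fun u => ?_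
    simp only
    obtain ⟨a, ha⟩ : ∃ a : ℝ, a = Real.exp (1 / 2 * li p u) := ⟨_, rfl⟩
    have e1 : Real.exp (0 * li v u + 1 / 2 * li p u - V u) = a * Real.exp (-V u) := by
      rw [ha, ← Real.exp_add]
      congr 1
      ring
    have e2 : Real.exp (0 * li v u + 0 * li p u - V u) = Real.exp (-V u) := by
      congr 1
      ring
    have e3 : Real.exp (0 * li v u + 1 * li p u - V u) = a ^ 2 * Real.exp (-V u) := by
      rw [ha, ← Real.exp_nat_mul, ← Real.exp_add]
      congr 1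
      push_cast
      ring
    rw [e1, e2, e3]
    have h4 : 2 * a ≤ l + l⁻¹ * a ^ 2 := by
      have : l + l⁻¹ * a ^ 2 - 2 * a = l⁻¹ * (l - a) ^ 2 := by
        field_simp
        ring
      have h5 : 0 ≤ l⁻¹ * (l - a) ^ 2 := by positivity
      linarith
    have := mul_le_mul_of_nonneg_right h4 (Real.exp_pos (-V u)).le
    linarith
  have h4 : l * Nt V v p 0 0 + l⁻¹ * Nt V v p 0 1 = 2 * (l * Nt V v p 0 0) := by
    have h5 : Nt V v p 0 1 = l ^ 2 * Nt V v p 0 0 := by
      rw [hl2]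
      field_simp
    rw [h5]
    field_simp
    ring
  rw [h4] at h3
  have h5 : Nt V v p 0 (1 / 2) ≤ l * Nt V v p 0 0 := by linarith
  have h6 := Real.log_le_log h2 h5
  rw [Real.log_mul hl0.ne' h0.ne'] at h6
  have h7 : 2 * Real.log l = Real.log (Nt V v p 0 1) - Real.log (Nt V v p 0 0) := by
    rw [← Real.log_div h1.ne' h0.ne', ← hl2, Real.log_pow]
    push_cast
    ring
  linarith

lemma opt {d A B : ℝ} (hA : 0 ≤ A) (hB : 0 ≤ B) (h : ∀ t : ℝ, 0 < t → t * d ≤ t ^ 2 * A + B / 4) :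
    d ≤ √(A * B) := by
  rcases le_or_gt d 0 with hd | hd
  · exact hd.trans (Real.sqrt_nonneg _)
  rcases hA.eq_or_lt with hA0 | hA0
  · exfalso
    have h1 := h ((B / 4 + 1) / d) (by positivity)
    rw [← hA0, div_mul_cancel₀ _ hd.ne'] at h1
    linarith
  · refine Real.le_sqrt_of_sq_le ?_
    have h1 := h (d / (2 * A)) (by positivity)
    have e1 : d / (2 * A) * d = 2 * (d ^ 2 / (4 * A)) := by
      field_simp
      ring
    have e2 : (d / (2 * A)) ^ 2 * A = d ^ 2 / (4 * A) := by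
      field_simp
      ring
    rw [e1, e2] at h1
    have h2 : d ^ 2 / (4 * A) ≤ B / 4 := by linarith
    rw [div_le_iff₀ (by positivity)] at h2
    linarith

/-- **the mean of a linear function under an orthogonal linear tilt** -/
theorem mn_tilt (hV : ConvexOn ℝ univ V) (hL : Lip V) {v p : κ → ℝ} (hvp : ∑ i, v i * p i = 0) :
    mn (fun u => V u - li p u) (li v) - mn V (li v) ≤ √((∑ i, v i ^ 2) * ∑ i, p i ^ 2) := by
  have hL' : Lip fun u => V u - li p u := by
    have := hL.add ((lip_li p).const_mul (-1))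
    have e : (fun y => V y + -1 * li p y) = fun u => V u - li p u := by
      funext u
      ring
    rwa [e] at this
  refine opt (Finset.sum_nonneg fun i _ => sq_nonneg _) (Finset.sum_nonneg fun i _ => sq_nonneg _)
    fun t ht => ?_
  have j1 := jen hL' v 0 t
  have j0 := jen hL v p (-t)
  have e1 : Nt (fun u => V u - li p u) v 0 t 0 = Nt V v p t 1 := by
    unfold Nt
    congr 1
    funext u
    congr 1
    ring
  have e2 : ∫ u, Real.exp (-(V u - li p u)) ∂(gI κ) = Nt V v p 0 1 := by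
    unfold Nt
    congr 1
    funext u
    congr 1
    ring
  rw [e1, e2] at j1
  rw [← Nt_zero v p] at j0
  have h1 := (conc hV hL v p).2 (mem_univ (t, (1 : ℝ))) (mem_univ (-t, (0 : ℝ)))
    (by norm_num : (0 : ℝ) ≤ 1 / 2) (by norm_num : (0 : ℝ) ≤ 1 / 2) (by norm_num)
  simp only [smul_eq_mul, Prod.smul_mk, Prod.mk_add_mk, mul_zero, add_zero, mul_one] at h1
  have e0 : 1 / 2 * t + 1 / 2 * -t = (0 : ℝ) := by ring
  rw [e0] at h1
  have q1 : ∑ i, (t * v i + 1 * p i) ^ 2 = t ^ 2 * (∑ i, v i ^ 2) + ∑ i, p i ^ 2 := by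
    have : ∑ i, (t * v i + 1 * p i) ^ 2 = t ^ 2 * (∑ i, v i ^ 2) + 2 * t * (∑ i, v i * p i) +
        ∑ i, p i ^ 2 := by
      rw [Finset.mul_sum, Finset.mul_sum, ← Finset.sum_add_distrib, ← Finset.sum_add_distrib]
      exact Finset.sum_congr rfl fun i _ => by ring
    rw [this, hvp]
    ring
  have q2 : ∑ i, (-t * v i + 0 * p i) ^ 2 = t ^ 2 * ∑ i, v i ^ 2 := by
    rw [Finset.mul_sum]
    exact Finset.sum_congr rfl fun i _ => by ring
  have q3 : ∑ i, ((0 : ℝ) * v i + 1 / 2 * p i) ^ 2 = (∑ i, p i ^ 2) / 4 := by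
    rw [Finset.sum_div]
    exact Finset.sum_congr rfl fun i _ => by ring
  rw [q1, q2, q3] at h1
  have h2 := half hL v p
  linarith

end

end Vale.Agent.P146.H292
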